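import Vale.Agent.N097.Len

/-! # N097 : inscribed polygons of greatest perimeter -/

set_option linter.all false

namespace Vale.Agent.N097

open Real Set Filter Topology Vale.Agent.P097 Vale.Agent.P097B

variable {h : ℝ → ℝ} {N P : ℕ} {x y : ℤ → ℝ}

/-- inscribed polygons with `N` sides which turn `P` times -/
def Cfg (N P : ℕ) (x : ℤ → ℝ) : Prop :=
  (∀ j, x (j + N) = x j + P * (2 * π)) ∧ ∀ j, x j ≤ x (j + 1) ∧ x (j + 1) ≤ x j + 2 * π

/-- the perimeter -/
noncomputable def Len (h : ℝ → ℝ) (N : ℕ) (x : ℤ → ℝ) : ℝ :=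
  ∑ j ∈ Finset.range N, ell h (x j) (x (j + 1))

/-- greatest perimeter among the polygons with the same first vertex -/
def MaxAt (h : ℝ → ℝ) (N P : ℕ) (x : ℤ → ℝ) : Prop :=
  Cfg N P x ∧ ∀ y, Cfg N P y → y 0 = x 0 → Len h N y ≤ Len h N x

/-- greatest perimeter -/
def GMax (h : ℝ → ℝ) (N P : ℕ) (x : ℤ → ℝ) : Prop :=
  Cfg N P x ∧ ∀ y, Cfg N P y → Len h N y ≤ Len h N x

theorem GMax.at (M : GMax h N P x) : MaxAt h N P x := ⟨M.1, fun y c _ => M.2 y c⟩

theorem Cfg.per (C : Cfg N P x) (j k : ℤ) : x (j + k * N) = x j + k * (P * (2 * π)) := by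
  induction k using Int.induction_on with
  | zero => simp
  | succ k ih =>
    rw [add_mul, one_mul, ← add_assoc, C.1, ih]; push_cast; ring
  | pred k ih =>
    have := C.1 (j + (-(k : ℤ) - 1) * N)
    rw [show j + (-(k : ℤ) - 1) * N + N = j + -(k : ℤ) * N by ring, ih] at this
    push_cast at this ⊢
    linarith

theorem Cfg.mov (C : Cfg N P x) (a : ℤ) (t : ℝ) : Cfg N P (fun j => x (j + a) + t) := by
  refine ⟨fun j => ?_, fun j => ?_⟩
  · simp only
    rw [add_right_comm, C.1]; ring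
  · simp only
    rw [add_right_comm]
    constructor <;> linarith [(C.2 (j + a)).1, (C.2 (j + a)).2]

theorem Cfg.mul (C : Cfg N P x) (k : ℕ) : Cfg (k * N) (k * P) x :=
  ⟨fun j => by push_cast; rw [C.per]; push_cast; ring, C.2⟩

theorem Cfg.mono (C : Cfg N P x) : Monotone x := monotone_int_of_le_succ fun j => (C.2 j).1

theorem Cfg.ext (C : Cfg N P x) (C' : Cfg N P y) (N0 : 0 < N) (e : ∀ j : ℕ, j < N → x j = y j)
    (j : ℤ) : x j = y j := by
  have n0 : (0 : ℤ) < N := by exact_mod_cast N0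
  have a := Int.emod_nonneg j n0.ne'
  have b := Int.emod_lt_of_pos j n0
  have c := e (j % N).toNat (by omega)
  rw [Int.toNat_of_nonneg a] at c
  rw [← Int.emod_add_ediv_mul j N, C.per, C'.per, c]

theorem sum_shift {f : ℤ → ℝ} (hf : ∀ j, f (j + N) = f j) (a : ℤ) :
    ∑ j ∈ Finset.range N, f (j + a) = ∑ j ∈ Finset.range N, f j := by
  have st : ∀ a : ℤ, ∑ j ∈ Finset.range N, f (j + (a + 1)) = ∑ j ∈ Finset.range N, f (j + a) := by
    intro a
    have e1 := Finset.sum_range_succ (fun j : ℕ => f (j + a)) N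
    have e2 := Finset.sum_range_succ' (fun j : ℕ => f (j + a)) N
    simp only [Nat.cast_add, Nat.cast_one, Nat.cast_zero, zero_add, add_assoc, add_comm 1 a]
      at e1 e2
    rw [add_comm (N : ℤ) a, hf] at e1
    linarith
  induction a using Int.induction_on with
  | zero => simp
  | succ k ih => rw [st, ih]
  | pred k ih => rw [← st, sub_add_cancel, ih]

theorem Cfg.side (H : SmoothTable h) (C : Cfg N P x) (j : ℤ) :
    ell h (x (j + N)) (x (j + N + 1)) = ell h (x j) (x (j + 1)) := by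
  rw [add_right_comm, C.1, C.1]
  simpa using ell_add H (x j) (x (j + 1)) P P

theorem Cfg.len_shift (H : SmoothTable h) (C : Cfg N P x) (a : ℤ) :
    Len h N x = ∑ j ∈ Finset.range N, ell h (x (j + a)) (x (j + a + 1)) :=
  (sum_shift (f := fun j => ell h (x j) (x (j + 1))) (C.side H) a).symm

theorem Cfg.len_mov (H : SmoothTable h) (C : Cfg N P x) (a m : ℤ) :
    Len h N (fun j => x (j + a) + m * (2 * π)) = Len h N x := by
  rw [C.len_shift H a]
  unfold Len
  simp only [ell_add H, add_right_comm]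

theorem GMax.mov (H : SmoothTable h) (M : GMax h N P x) (a m : ℤ) :
    GMax h N P (fun j => x (j + a) + m * (2 * π)) :=
  ⟨M.1.mov a _, fun y c => by rw [M.1.len_mov H]; exact M.2 y c⟩

theorem Cfg.len_mul (H : SmoothTable h) (C : Cfg N P x) (k : ℕ) :
    Len h (k * N) x = k * Len h N x := by
  induction k with
  | zero => simp [Len]
  | succ k ih =>
    have := C.len_shift H (k * N : ℕ)
    rw [add_mul, one_mul, Nat.cast_add, add_mul, ← ih, Nat.cast_one, one_mul, this]
    unfold Len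
    rw [Finset.sum_range_add]
    simp only [Nat.cast_add, add_comm ((k * N : ℕ) : ℤ)]

/-- move the vertices congruent to `m` -/
noncomputable def upd (N : ℕ) (x : ℤ → ℝ) (m : ℤ) (t : ℝ) (j : ℤ) : ℝ :=
  x j + if (N : ℤ) ∣ j - m then t else 0

theorem Cfg.upd (H : SmoothTable h) (C : Cfg N P x) (N2 : 2 ≤ N) (m : ℤ) {z : ℝ}
    (h1 : x (m - 1) ≤ z) (h2 : z ≤ x (m - 1) + 2 * π) (h3 : z ≤ x (m + 1))
    (h4 : x (m + 1) ≤ z + 2 * π) : Cfg N P (upd N x m (z - x m)) ∧
      Len h N (upd N x m (z - x m)) + (ell h (x (m - 1)) (x m) + ell h (x m) (x (m + 1))) =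
        Len h N x + (ell h (x (m - 1)) z + ell h z (x (m + 1))) := by
  have nd : ∀ i : ℤ, 0 < i → i < N → ¬ (N : ℤ) ∣ i := fun i a b c =>
    absurd (Int.le_of_dvd a c) (not_le.2 b)
  have n1 : ¬ (N : ℤ) ∣ 1 := nd 1 one_pos (by omega)
  have C' : Cfg N P (N097.upd N x m (z - x m)) := by
    refine ⟨fun j => ?_, fun j => ?_⟩
    · simp only [N097.upd, C.1, add_sub_right_comm j, dvd_add_self_right]
      ring
    · simp only [N097.upd]
      by_cases a : (N : ℤ) ∣ j - m
      · have b : ¬ (N : ℤ) ∣ j + 1 - m := fun b => n1 (by simpa using dvd_sub b a)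
        obtain ⟨k, hk⟩ := a
        have e0 := C.per m k
        have e1 := C.per (m + 1) k
        rw [if_pos ⟨k, hk⟩, if_neg b, show j + 1 = m + 1 + k * N by linarith, e1,
          show j = m + k * N by linarith, e0]
        constructor <;> linarith
      · by_cases b : (N : ℤ) ∣ j + 1 - m
        · obtain ⟨k, hk⟩ := b
          have e0 := C.per (m - 1) k
          have e1 := C.per m k
          rw [if_neg a, if_pos ⟨k, hk⟩, show j + 1 = m + k * N by linarith, e1,
            show j = m - 1 + k * N by linarith, e0]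
          constructor <;> linarith
        · simpa [a, b] using C.2 j
  refine ⟨C', ?_⟩
  obtain ⟨M, rfl⟩ : ∃ M, N = M + 2 := ⟨N - 2, by omega⟩
  rw [C.len_shift H (m - 1), C'.len_shift H (m - 1), Finset.sum_range_succ',
    Finset.sum_range_succ', Finset.sum_range_succ', Finset.sum_range_succ']
  have u : ∀ i : ℤ, ¬ ((M + 2 : ℕ) : ℤ) ∣ i - m → N097.upd (M + 2) x m (z - x m) i = x i :=
    fun i hi => by simp only [N097.upd, if_neg hi, add_zero]
  rw [Finset.sum_congr rfl fun j hj => by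
    have := Finset.mem_range.1 hj
    rw [u _ (nd _ (by omega) (by omega)), u _ (nd _ (by omega) (by omega))]]
  have u0 := u (m - 1) fun b => n1 (by simpa using b.neg_right)
  have u1 : N097.upd (M + 2) x m (z - x m) m = z := by simp [N097.upd]
  have u2 := u (m + 1) fun b => n1 (by simpa using b)
  simp only [Nat.cast_zero, zero_add, Nat.cast_one, sub_add_cancel, add_sub_cancel, u0, u1, u2]
  ring

theorem MaxAt.loc (H : SmoothTable h) (M : MaxAt h N P x) {m : ℕ} (h0 : 0 < m) (h1 : m < N) :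
    Loc h (x (m - 1)) (x m) (x (m + 1)) := by
  intro z a b c d
  obtain ⟨C, e⟩ := M.1.upd H (by omega) m a b c d
  have : ¬ (N : ℤ) ∣ 0 - m := fun b =>
    absurd (Int.le_of_dvd (by omega) (by simpa using b.neg_right : (N : ℤ) ∣ m)) (by omega)
  have := M.2 _ C (by simp only [upd, if_neg this, add_zero])
  linarith

/-- the polygon with equally spaced normals -/
theorem exists_cfg (H : SmoothTable h) (P0 : 0 < P) (PN : P < N) (s : ℝ) :
    ∃ x, Cfg N P x ∧ x 0 = s ∧ 0 < Len h N x := by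
  have n0 : (0 : ℝ) < N := by exact_mod_cast P0.trans PN
  have a : (0 : ℝ) < P * (2 * π) / N := by positivity
  have b : P * (2 * π) / N < 2 * π := by
    rw [div_lt_iff₀ n0, mul_comm]
    exact mul_lt_mul_of_pos_left (by exact_mod_cast PN) (by positivity)
  refine ⟨fun j => s + j * (P * (2 * π) / N), ⟨fun j => ?_, fun j => ?_⟩, by simp, ?_⟩
  · push_cast; field_simp; ring
  · push_cast; constructor <;> linarith
  · refine Finset.sum_pos (fun j _ => ell_pos H ?_ ?_) ⟨0, Finset.mem_range.2 (P0.trans PN)⟩ <;>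
      push_cast <;> linarith

theorem MaxAt.strict (H : SmoothTable h) (P0 : 0 < P) (PN : P < N) (M : MaxAt h N P x) :
    ∀ j : ℕ, j < N → x j < x (j + 1) ∧ x (j + 1) < x j + 2 * π := by
  have ex : ∃ i : ℕ, i < N ∧ x i < x (i + 1) ∧ x (i + 1) < x i + 2 * π := by
    by_contra c
    push Not at c
    obtain ⟨y, C, e, l⟩ := exists_cfg H P0 PN (x 0)
    have := M.2 y C e
    have z : Len h N x = 0 := Finset.sum_eq_zero fun j hj => by
      rcases (M.1.2 j).1.eq_or_lt with a | a
      · rw [← a, ell_self]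
      · rw [le_antisymm (M.1.2 j).2 (c j (Finset.mem_range.1 hj) a)]
        simpa [ell_self] using ell_add H (x j) (x j) 0 1
    linarith
  have st : ∀ j : ℕ, j + 1 < N → ((x j < x (j + 1) ∧ x (j + 1) < x j + 2 * π) ↔
      (x (j + 1 : ℕ) < x ((j + 1 : ℕ) + 1) ∧ x ((j + 1 : ℕ) + 1) < x (j + 1 : ℕ) + 2 * π)) := by
    intro j hj
    have l := M.loc H (Nat.succ_pos j) hj
    simp only [Nat.succ_eq_add_one, Nat.cast_add, Nat.cast_one, add_sub_cancel_right] at l ⊢
    exact ⟨fun a => l.next H a.1 a.2 (M.1.2 _).1 (M.1.2 _).2,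
      fun a => l.prev H (M.1.2 _).1 (M.1.2 _).2 a.1 a.2⟩
  have all : ∀ j : ℕ, j < N → ((x (0 : ℕ) < x ((0 : ℕ) + 1) ∧
      x ((0 : ℕ) + 1) < x (0 : ℕ) + 2 * π) ↔ (x j < x (j + 1) ∧ x (j + 1) < x j + 2 * π)) := by
    intro j hj
    induction j with
    | zero => rfl
    | succ k ih => exact (ih (by omega)).trans (st k hj)
  obtain ⟨i, a, b⟩ := ex
  exact fun j hj => (all j hj).1 ((all i a).2 b)

/-- a polygon of greatest perimeter is a billiard path -/
theorem MaxAt.seg (H : SmoothTable h) (P0 : 0 < P) (PN : P < N) (M : MaxAt h N P x) :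
    ∃ δ, Seg h N (fun j => x j) δ := by
  have s := M.strict H P0 PN
  have : ∀ j : ℕ, ∃ a b, j < N → Step h (x j) a (x (j + 1)) b := fun j => by
    by_cases hj : j < N
    · obtain ⟨a, b, S⟩ := chord H (s j hj).1 (s j hj).2
      exact ⟨a, b, fun _ => S⟩
    · exact ⟨0, 0, fun c => absurd c hj⟩
  choose a b S using this
  refine ⟨fun j => Nat.casesOn j (a 0) b, fun j hj => ?_⟩
  cases j with
  | zero => simpa using S 0 hj
  | succ k =>
    have l := M.loc H (Nat.succ_pos k) hj
    simp only [Nat.succ_eq_add_one, Nat.cast_add, Nat.cast_one, add_sub_cancel_right] at l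
    have S2 := S (k + 1) hj
    simp only [Nat.cast_add, Nat.cast_one] at S2 ⊢
    rw [l.law H (S k (by omega)) S2]
    exact S2

theorem cLen (H : SmoothTable h) (N : ℕ) : Continuous (Len h N) := by
  have c := cbdry H
  refine continuous_finset_sum _ fun j _ => ?_
  exact ((c.comp (continuous_apply ((j : ℤ) + 1))).sub (c.comp (continuous_apply (j : ℤ)))).norm

theorem Cfg.bd (C : Cfg N P x) (j : ℤ) : |x j - x 0| ≤ |(j : ℝ)| * (2 * π) := by
  have hp := pi_pos
  induction j using Int.induction_on with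
  | zero => simp
  | succ k ih =>
    have := C.2 k
    push_cast at ih ⊢
    rw [abs_of_nonneg (by positivity : (0 : ℝ) ≤ k)] at ih
    rw [abs_of_nonneg (by positivity : (0 : ℝ) ≤ k + 1)]
    rw [abs_le] at ih ⊢
    constructor <;> linarith [this.1, this.2, ih.1, ih.2]
  | pred k ih =>
    have := C.2 (-(k : ℤ) - 1)
    rw [sub_add_cancel] at this
    have k0 : (0 : ℝ) ≤ k := by positivity
    push_cast at ih ⊢
    rw [abs_of_nonpos (by linarith : -(k : ℝ) ≤ 0)] at ih
    rw [abs_of_nonpos (by linarith : -(k : ℝ) - 1 ≤ 0)]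
    rw [abs_le] at ih ⊢
    constructor <;> linarith [this.1, this.2, ih.1, ih.2]

theorem cpt (N P : ℕ) (a b : ℝ) : IsCompact {x | Cfg N P x ∧ x 0 ∈ Icc a b} := by
  refine (isCompact_univ_pi fun j : ℤ => isCompact_Icc (a := a - |(j : ℝ)| * (2 * π))
    (b := b + |(j : ℝ)| * (2 * π))).of_isClosed_subset ?_ ?_
  · simp only [Cfg, setOf_and, setOf_forall]
    refine ((isClosed_iInter fun j => isClosed_eq (by fun_prop) (by fun_prop)).inter
      (isClosed_iInter fun j => (isClosed_le (by fun_prop) (by fun_prop)).inter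
        (isClosed_le (by fun_prop) (by fun_prop)))).inter
      (isClosed_Icc.preimage (continuous_apply (0 : ℤ)))
  · rintro x ⟨C, h1, h2⟩ j -
    have := abs_le.1 (C.bd j)
    constructor <;> linarith [this.1, this.2]

theorem exists_maxAt (H : SmoothTable h) (P0 : 0 < P) (PN : P < N) (s : ℝ) :
    ∃ x, MaxAt h N P x ∧ x 0 = s := by
  obtain ⟨y, C, e, -⟩ := exists_cfg H P0 PN s
  obtain ⟨x, ⟨a, b⟩, m⟩ := (cpt N P s s).exists_isMaxOn ⟨y, C, e.ge, e.le⟩ (cLen H N).continuousOn
  have : x 0 = s := le_antisymm b.2 b.1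
  exact ⟨x, ⟨a, fun y c d => m ⟨c, (d.trans this).ge, (d.trans this).le⟩⟩, this⟩

theorem exists_gmax (H : SmoothTable h) (P0 : 0 < P) (PN : P < N) (s : ℝ) :
    ∃ x, GMax h N P x ∧ x 0 ≤ s ∧ s ≤ x 1 := by
  have hp : 0 < 2 * π := by positivity
  obtain ⟨y, C, e, -⟩ := exists_cfg H P0 PN 0
  obtain ⟨x, ⟨a, b⟩, m⟩ := (cpt N P 0 (2 * π)).exists_isMaxOn ⟨y, C, e.ge, e ▸ hp.le⟩
    (cLen H N).continuousOn
  have G : GMax h N P x := by
    refine ⟨a, fun y c => ?_⟩
    rw [← c.len_mov H 0 (-toIcoDiv hp 0 (y 0))]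
    refine m ⟨c.mov _ _, ?_⟩
    have := sub_toIcoDiv_zsmul_mem_Ico hp 0 (y 0)
    simp only [zsmul_eq_mul, zero_add] at this
    simp only [add_zero, Int.cast_neg, neg_mul, ← sub_eq_add_neg]
    exact ⟨this.1, this.2.le⟩
  have p0 : (0 : ℝ) < P * (2 * π) := by positivity
  obtain ⟨i, i1, i2⟩ := Int.exists_greatest_of_bdd (P := fun j => x j ≤ s)
    (by
      obtain ⟨k, hk⟩ := exists_nat_gt ((s - x 0) / (P * (2 * π)))
      refine ⟨0 + k * N, fun j hj => ?_⟩
      by_contra c
      have := a.mono (not_le.1 c).le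
      rw [a.per, div_lt_iff₀ p0] at *
      push_cast at this
      linarith)
    (by
      obtain ⟨k, hk⟩ := exists_nat_gt ((x 0 - s) / (P * (2 * π)))
      refine ⟨0 + (-k : ℤ) * N, ?_⟩
      rw [a.per, div_lt_iff₀ p0] at *
      push_cast
      linarith)
  refine ⟨_, G.mov H i 0, by simpa using i1, ?_⟩
  by_contra c
  have := i2 (1 + i) (by simpa using (not_le.1 c).le)
  omega

theorem Cfg.sup (C : Cfg N P x) (C' : Cfg N P y) : Cfg N P fun j => max (x j) (y j) :=
  ⟨fun j => by simp only [C.1, C'.1, max_add_add_right], fun j =>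
    ⟨max_le_max (C.2 j).1 (C'.2 j).1, by
      rw [← max_add_add_right]; exact max_le_max (C.2 j).2 (C'.2 j).2⟩⟩

theorem Cfg.inf (C : Cfg N P x) (C' : Cfg N P y) : Cfg N P fun j => min (x j) (y j) :=
  ⟨fun j => by simp only [C.1, C'.1, min_add_add_right], fun j =>
    ⟨min_le_min (C.2 j).1 (C'.2 j).1, by
      rw [← min_add_add_right]; exact min_le_min (C.2 j).2 (C'.2 j).2⟩⟩

theorem lat_le (H : SmoothTable h) {a b a' b' : ℝ} (h1 : a ≤ b) (h2 : b ≤ a + 2 * π)
    (h3 : a' ≤ b') (h4 : b' ≤ a' + 2 * π) :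
    ell h a b + ell h a' b' ≤ ell h (max a a') (max b b') + ell h (min a a') (min b b') := by
  rcases le_total a a' with c | c <;> rcases le_total b b' with d | d <;>
    simp only [max_eq_left, max_eq_right, min_eq_left, min_eq_right, c, d]
  · linarith
  · linarith [sup_le H c d h3 h2]
  · linarith [sup_le H c d h1 h4]
  · linarith

theorem lat (H : SmoothTable h) (C : Cfg N P x) (C' : Cfg N P y) :
    Len h N x + Len h N y ≤
      Len h N (fun j => max (x j) (y j)) + Len h N fun j => min (x j) (y j) := by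
  unfold Len
  rw [← Finset.sum_add_distrib, ← Finset.sum_add_distrib]
  exact Finset.sum_le_sum fun j _ => lat_le H (C.2 j).1 (C.2 j).2 (C'.2 j).1 (C'.2 j).2

theorem GMax.det (H : SmoothTable h) (P0 : 0 < P) (PN : P < N) (M : GMax h N P x)
    (M' : GMax h N P y) (h0 : x 0 = y 0) (h1 : x 1 = y 1) (j : ℤ) : x j = y j := by
  obtain ⟨δ, S⟩ := M.at.seg H P0 PN
  obtain ⟨γ, S'⟩ := M'.at.seg H P0 PN
  have a := S 0 (by omega)
  have b := S' 0 (by omega)
  simp only [Nat.cast_zero, zero_add, Nat.cast_one] at a b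
  rw [h0, h1] at a
  exact M.1.ext M'.1 (by omega) (fun i hi => (S.det H S' h0 (step_ang H a b).1 i hi.le).1) j

/-- Aubry: two polygons of greatest perimeter do not cross -/
theorem GMax.ord (H : SmoothTable h) (P0 : 0 < P) (PN : P < N) (M : GMax h N P x)
    (M' : GMax h N P y) : (∀ j, x j ≤ y j) ∨ ∀ j, y j ≤ x j := by
  have key : ∀ {x y : ℤ → ℝ}, GMax h N P x → GMax h N P y → x 0 ≤ y 0 → x 1 ≤ y 1 →
      ∀ j, x j ≤ y j := by
    intro x y M M' a b j
    have l := lat H M.1 M'.1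
    have G : GMax h N P fun j => max (x j) (y j) := ⟨M.1.sup M'.1, fun w c => by
      linarith [M.2 _ (M.1.inf M'.1), M'.2 w c]⟩
    rw [← G.det H P0 PN M' (max_eq_right a) (max_eq_right b) j]
    exact le_max_left _ _
  have nc : ∀ {x y : ℤ → ℝ}, GMax h N P x → GMax h N P y → x 0 < y 0 → x 1 ≤ y 1 := by
    intro x y M M' a
    by_contra b
    push Not at b
    have : Len h N x + Len h N y <
        Len h N (fun j => max (x j) (y j)) + Len h N fun j => min (x j) (y j) := by
      unfold Len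
      rw [← Finset.sum_add_distrib, ← Finset.sum_add_distrib]
      refine Finset.sum_lt_sum (fun j _ => lat_le H (M.1.2 j).1 (M.1.2 j).2 (M'.1.2 j).1
        (M'.1.2 j).2) ⟨0, Finset.mem_range.2 (by omega), ?_⟩
      simp only [Nat.cast_zero, zero_add, max_eq_right a.le, max_eq_left b.le, min_eq_left a.le,
        min_eq_right b.le]
      linarith [sup_lt H a b (by simpa using (M'.1.2 0).1) (by simpa using (M.1.2 0).2)]
    linarith [M.2 _ (M.1.inf M'.1), M'.2 _ (M.1.sup M'.1)]
  rcases lt_trichotomy (x 0) (y 0) with a | a | a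
  · exact Or.inl (key M M' a.le (nc M M' a))
  · rcases le_total (x 1) (y 1) with b | b
    · exact Or.inl (key M M' a.le b)
    · exact Or.inr (key M' M a.ge b)
  · exact Or.inr (key M' M a.le (nc M' M a))

theorem GMax.birk (H : SmoothTable h) {q : ℕ} (P0 : 0 < P) (PN : P < N) (hq : q * P < N)
    (M : GMax h N P x) (j : ℤ) : x (j + q) ≤ x j + 2 * π := by
  rcases M.ord H P0 PN (M.mov H q (-1)) with a | a
  · exfalso
    have b : ∀ k : ℕ, x 0 + k * (2 * π) ≤ x (0 + k * q) := fun k => by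
      induction k with
      | zero => simp
      | succ k ih =>
        have := a (0 + k * q)
        push_cast at this ⊢
        rw [add_mul (k : ℤ), one_mul, ← add_assoc]
        linarith
    have c := b N
    rw [mul_comm (N : ℤ), M.1.per] at c
    have d : ((q * P : ℕ) : ℝ) < N := by exact_mod_cast hq
    push_cast at c d
    nlinarith [pi_pos]
  · have := a j
    push_cast at this
    linarith

/-- polygons of greatest perimeter with many sides per turn have short sides -/
theorem small (H : SmoothTable h) {τ : ℝ} (τ0 : 0 < τ) : ∃ q : ℕ, 0 < q ∧ ∀ N P x, 0 < P →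
    q * P < N → GMax h N P x → ∀ j, x (j + 1) < x j + τ := by
  obtain ⟨B, B0, hB⟩ := harn H
  have hp := pi_pos
  set σ := min (τ / 2) π
  have σ0 : 0 < σ := by positivity
  have c0 : 0 < 1 - cos σ := by
    have := cos_lt_cos_of_nonneg_of_le_pi le_rfl (min_le_right _ _) σ0
    rw [cos_zero] at this
    linarith
  obtain ⟨q, hq⟩ := exists_nat_gt (max 1 (exp (B * (2 * π)) * (2 * π) ^ 2 / (1 - cos σ)))
  rw [max_lt_iff, div_lt_iff₀ c0] at hq
  have q0 : (0 : ℝ) < q := by linarith [hq.1]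
  refine ⟨q, by exact_mod_cast q0, fun N P x P0 hN M j => ?_⟩
  have q1 : 1 < q := by exact_mod_cast hq.1
  have qN : q < N := by nlinarith
  have PN : P < N := by nlinarith
  obtain ⟨δ, S⟩ := (M.mov H j 0).at.seg H P0 PN
  set y : ℕ → ℝ := fun i => x (i + j) + (0 : ℤ) * (2 * π)
  have tot : y q - y 0 ≤ 2 * π := by
    have := M.birk H P0 PN hN j
    simp only [y, Nat.cast_zero, zero_add, add_comm (q : ℤ)]
    linarith
  obtain ⟨i, hi, e⟩ : ∃ i ∈ Finset.range q, y (i + 1) - y i ≤ 2 * π / q := by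
    refine Finset.exists_le_of_sum_le ⟨0, Finset.mem_range.2 (by omega)⟩ ?_
    rw [Finset.sum_range_sub, Finset.sum_const, Finset.card_range, nsmul_eq_mul,
      mul_div_cancel₀ _ q0.ne']
    exact tot
  have iq := Finset.mem_range.1 hi
  obtain ⟨a1, a2, a3, a4, a5, -⟩ := S i (by omega)
  have key : ∀ k, k ≤ 1 → 0 < δ k → δ k < σ := fun k hk d0 => by
    by_contra c
    have u := (Seg.harn hB S (show k ≤ i + 1 by omega) (by omega)).1
    have v : y (i + 1) - y k ≤ 2 * π := by
      linarith [S.mono (show i + 1 ≤ q by omega) qN.le, S.mono (Nat.zero_le k) (by omega)]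
    have w : δ k ≤ π := (S k (by omega)).2.1.le
    have c1 := cos_le_cos_of_nonneg_of_le_pi σ0.le w (not_lt.1 c)
    have c2 := one_sub_sq_div_two_le_cos (x := δ (i + 1))
    have c3 : δ (i + 1) * q ≤ 2 * π := by
      rw [← le_div_iff₀ q0]; linarith
    have c4 : exp (B * (y (i + 1) - y k)) ≤ exp (B * (2 * π)) :=
      exp_le_exp.2 (mul_le_mul_of_nonneg_left v B0)
    have c5 : (δ (i + 1) * q) ^ 2 ≤ (2 * π) ^ 2 := pow_le_pow_left₀ (by positivity) c3 2
    have c6 : 1 - cos (δ (i + 1)) ≤ δ (i + 1) ^ 2 := by nlinarith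
    have c7 : 1 - cos σ ≤ exp (B * (2 * π)) * δ (i + 1) ^ 2 :=
      (by linarith : _ ≤ _).trans (u.trans (mul_le_mul c4 c6 (by linarith [cos_le_one (δ (i + 1))])
        (exp_pos _).le))
    have c8 := mul_le_mul_of_nonneg_right c7 (sq_nonneg (q : ℝ))
    have c9 := mul_le_mul_of_nonneg_left c5 (exp_pos (B * (2 * π))).le
    nlinarith [mul_pos c0 q0, hq.1, hq.2]
  obtain ⟨b1, -, b3, -, b5, -⟩ := S 0 (by omega)
  have k0 := key 0 (by omega) b1
  have k1 := key 1 le_rfl b3
  have := min_le_left (τ / 2) π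
  simp only [y, Nat.cast_zero, zero_add, Nat.cast_one, add_comm 1 j] at b5
  linarith

/-- among the longest polygons from a given vertex there is one with a short first side -/
theorem trap (H : SmoothTable h) (P0 : 0 < P) (PN : P < N) {τ : ℝ}
    (sm : ∀ x, GMax h N P x → ∀ j, x (j + 1) < x j + τ) (s : ℝ) :
    ∃ x, MaxAt h N P x ∧ x 0 = s ∧ x 1 < s + 2 * τ := by
  obtain ⟨x, M, e⟩ := exists_maxAt H P0 PN s
  obtain ⟨y, G, a, b⟩ := exists_gmax H P0 PN s
  have G' := G.mov H 1 0
  simp only [Int.cast_zero, zero_mul, add_zero] at G'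
  have l := lat H M.1 G'.1
  have e' : min (x 0) (y (0 + 1)) = s := by rw [e]; exact min_eq_left (by simpa using b)
  refine ⟨_, ⟨M.1.inf G'.1, fun w c d => ?_⟩, e', (min_le_right _ _).trans_lt ?_⟩
  · linarith [G'.2 _ (M.1.sup G'.1), M.2 w c (d.trans (e'.trans e.symm))]
  · linarith [sm y G 0, sm y G 1, zero_add (1 : ℤ) ▸ sm y G 0]

/-- fixing a vertex costs a bounded amount -/
theorem MaxAt.near (H : SmoothTable h) (P0 : 0 < P) (PN : P < N) {D : ℝ}
    (hD : ∀ a b, ell h a b ≤ D) (sm : ∀ x, GMax h N P x → ∀ j, x (j + 1) < x j + π)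
    (M : MaxAt h N P x) (C : Cfg N P y) : Len h N y ≤ Len h N x + 2 * D := by
  obtain ⟨w, G, a, b⟩ := exists_gmax H P0 PN (x 0)
  have s0 := sm w G 0
  have s1 := sm w G (0 - 1)
  have s2 := (G.1.2 (0 - 1)).1
  rw [sub_add_cancel] at s1 s2
  rw [zero_add] at s0
  obtain ⟨C', e⟩ := G.1.upd H (by omega) 0 (z := x 0) (by linarith) (by linarith)
    (by simpa using b) (by rw [zero_add]; linarith [pi_pos])
  have := M.2 _ C' (by simp [upd])
  have n : ∀ a b, 0 ≤ ell h a b := fun a b => norm_nonneg _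
  linarith [G.2 y C, hD (w (0 - 1)) (w 0), hD (w 0) (w (0 + 1)), n (w (0 - 1)) (x 0),
    n (x 0) (w (0 + 1))]

end Vale.Agent.N097
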