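import Vale.Agent.N097.Den

/-! # N097 : nested convex caustics -/

set_option linter.all false

namespace Vale.Agent.N097

open Real Set Filter Topology Vale.Agent.P097 Vale.Agent.P097B
open scoped ComplexConjugate

variable {h : ℝ → ℝ} {Ω : Set ℂ}

theorem dot_cis (z : ℂ) (t θ : ℝ) : dot (z + t * Complex.exp (θ * Complex.I)) θ = dot z θ + t := by
  simp only [dot, Complex.add_re, Complex.add_im, Complex.re_ofReal_mul,
    Complex.im_ofReal_mul, Complex.exp_ofReal_mul_I_re, Complex.exp_ofReal_mul_I_im]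
  linear_combination t * cos_sq_add_sin_sq θ

theorem norm_cis (t θ : ℝ) : ‖t * Complex.exp (θ * Complex.I)‖ = |t| := by
  rw [norm_mul, Complex.norm_exp_ofReal_mul_I, Complex.norm_real, mul_one, Real.norm_eq_abs]

theorem dot_lt (H : SmoothTable h) (op : IsOpen Ω) (bo : Bornology.IsBounded Ω)
    (rg : range (bdry h) = frontier Ω) {z : ℂ} (hz : z ∈ Ω) (θ : ℝ) : dot z θ < h θ := by
  obtain ⟨ρ, ρ0, hρ⟩ := Metric.isOpen_iff.1 op z hz
  have m := hρ (show z + (ρ / 2 : ℝ) * Complex.exp (θ * Complex.I) ∈ Metric.ball z ρ by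
    rw [Metric.mem_ball, dist_self_add_left, norm_cis, abs_of_pos (half_pos ρ0)]
    linarith)
  have k : Continuous fun z => dot z θ := cdot.comp (continuous_const.prodMk continuous_id)
  have : dot (z + (ρ / 2 : ℝ) * Complex.exp (θ * Complex.I)) θ ≤ Arc.supp Ω θ :=
    le_csSup ((bo.isCompact_closure.image k).bddAbove.mono (image_mono subset_closure)) ⟨_, m, rfl⟩
  rw [dot_cis, Arc.supp_eq H op bo rg] at this
  linarith

theorem den_of_nested (H : SmoothTable h) (op : IsOpen Ω) (bo : Bornology.IsBounded Ω)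
    (rg : range (bdry h) = frontier Ω) {ε : ℝ} (ε0 : 0 < ε) {𝒞 : Set (Set ℂ)}
    (h1 : ∀ C ∈ 𝒞, IsCompact C ∧ Convex ℝ C ∧ (interior C).Nonempty ∧ C ⊆ Ω ∧ ∀ ψ δ : ℝ,
      Touches C (bdry h ψ) (Complex.I * Complex.exp ((ψ - δ : ℝ) * Complex.I)) →
      Touches C (bdry h ψ) (Complex.I * Complex.exp ((ψ + δ : ℝ) * Complex.I)))
    (ch : IsChain (· ⊆ ·) 𝒞)
    (cov : ∀ z ∈ Ω, Metric.infDist z (frontier Ω) < ε → ∃ C ∈ 𝒞, z ∈ frontier C) :
    ∃ η, 0 < η ∧ Den h η := by
  have hp := pi_pos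
  have lt := fun z (hz : z ∈ Ω) => dot_lt H op bo rg hz
  have cov' : ∀ z ∈ Ω, ∀ φ, h φ - ε < dot z φ → ∃ C ∈ 𝒞, z ∈ frontier C := fun z hz φ k => by
    have out : z + (h φ - dot z φ : ℝ) * Complex.exp (φ * Complex.I) ∈ Ωᶜ := fun c => by
      have := lt _ c φ
      rw [dot_cis] at this
      linarith
    obtain ⟨y, y1, y2⟩ := exists_mem_frontier_infDist_compl_eq_dist hz
      (fun c => out (c ▸ mem_univ _))
    refine cov z hz ((Metric.infDist_le_dist_of_mem y1).trans_lt ?_)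
    rw [← y2]
    refine (Metric.infDist_le_dist_of_mem out).trans_lt ?_
    rw [dist_self_add_right, norm_cis, abs_of_pos (sub_pos.2 (lt z hz φ))]
    linarith
  have top : ∀ φ p, p < h φ → ∃ z ∈ Ω, p < dot z φ := fun φ p k => by
    have m : bdry h φ ∈ closure Ω := frontier_subset_closure (rg ▸ mem_range_self φ)
    have c : Continuous fun z => dot z φ := cdot.comp (continuous_const.prodMk continuous_id)
    obtain ⟨z, a, b⟩ := mem_closure_iff.1 m _ (isOpen_lt continuous_const c)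
      (show p < dot _ φ by rwa [show dot (bdry h φ) φ = _ from Arc.bdry_dot h φ φ, K_self])
    exact ⟨z, b, a⟩
  have sp := fun C (hC : C ∈ 𝒞) => supp_top (h1 C hC).1 ((h1 C hC).2.2.1.mono interior_subset)
  obtain ⟨z₀, a0, b0⟩ := top 0 (h 0 - ε) (by linarith)
  obtain ⟨C₀, m0, -⟩ := cov' z₀ a0 0 b0
  obtain ⟨m, mp, hm⟩ := (h1 C₀ m0).1.exists_thickening_subset_open op (h1 C₀ m0).2.2.2.1
  have mar : ∀ z ∈ C₀, ∀ φ, dot z φ + m / 2 < h φ := fun z hz φ => by
    rw [← dot_cis]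
    refine lt _ (hm (Metric.mem_thickening_iff.2 ⟨z, hz, ?_⟩)) φ
    rw [dist_self_add_left, norm_cis, abs_of_pos (half_pos mp)]
    linarith
  obtain ⟨B, B0, hB⟩ := rad_lip H
  have cr : Continuous (rad h) := (adm H).an.continuous.add (adm H).an.deriv.deriv.continuous
  have pr : Function.Periodic (rad h) (2 * π) := fun x => by
    simp only [rad, H.2.1, deriv_per (deriv_per H.2.1)]
  obtain ⟨R, hR⟩ := (pr.isBounded_of_continuous (by positivity) cr).exists_norm_le
  have R1 : ∀ x, rad h x ≤ R := fun x => (le_abs_self _).trans (hR _ (mem_range_self x))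
  have R0 : 0 < R := (H.2.2 0).trans_le (R1 0)
  have E0 := exp_pos (B * π)
  set μ := min ε (m / 2) / 2 with hμ
  have μ0 : 0 < μ := by positivity
  have μ1 : 2 * μ ≤ ε := by linarith [min_le_left ε (m / 2)]
  have μ2 : 2 * μ ≤ m / 2 := by linarith [min_le_right ε (m / 2)]
  refine ⟨μ / (exp (B * π) * (R * 2)), by positivity, fun ψ δ d0 d1 d2 r r0 => ?_⟩
  set φ := ψ + δ with hφ
  have near : h φ - K h φ ψ < μ := by
    have a := (kk_bd H B0 hB (Or.inr rfl) φ d0.le d2.le).2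
    have b : kk h (-1) φ δ = K h φ ψ := by simp [kk, hφ]
    have c : exp (B * δ) * (rad h φ * (1 - cos δ)) ≤ exp (B * π) * (R * (2 * δ)) :=
      mul_le_mul (exp_le_exp.2 (mul_le_mul_of_nonneg_left d2.le B0))
        (mul_le_mul (R1 _) (cos_lin d0.le d2.le) (by linarith [cos_le_one δ]) R0.le)
        (mul_nonneg (H.2.2 _).le (by linarith [cos_le_one δ])) E0.le
    rw [lt_div_iff₀ (by positivity)] at d1
    rw [b] at a
    linarith
  have mo := Sm.K_strictMono (adm H) φ
  have mψ : ψ ∈ Icc (φ - π) φ := ⟨by linarith, by linarith⟩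
  obtain ⟨ρ, ρ0, ρ1, ρ2, ρ3⟩ : ∃ ρ, 0 < ρ ∧ ρ ≤ r ∧ ρ ≤ δ ∧ ρ ≤ π - δ :=
    ⟨min r (min δ (π - δ)), lt_min r0 (lt_min d0 (by linarith)), min_le_left _ _,
      (min_le_right _ _).trans (min_le_left _ _), (min_le_right _ _).trans (min_le_right _ _)⟩
  have m1 : ψ - ρ ∈ Icc (φ - π) φ := ⟨by linarith, by linarith⟩
  have m2 : ψ + ρ ∈ Icc (φ - π) φ := ⟨by linarith, by linarith⟩
  have l1 := mo m1 mψ (by linarith)
  have l2 := mo mψ m2 (by linarith)
  simp only at l1 l2
  obtain ⟨d, e0, e1, e2, e3⟩ : ∃ d, 0 < d ∧ d ≤ μ ∧ d ≤ K h φ ψ - K h φ (ψ - ρ) ∧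
      d ≤ K h φ (ψ + ρ) - K h φ ψ :=
    ⟨min μ (min _ _), lt_min μ0 (lt_min (sub_pos.2 l1) (sub_pos.2 l2)), min_le_left _ _,
      (min_le_right _ _).trans (min_le_left _ _), (min_le_right _ _).trans (min_le_right _ _)⟩
  set p := K h φ ψ
  have main : ∃ C ∈ 𝒞, p - d < Arc.supp C φ ∧ Arc.supp C φ < p + d := by
    by_contra gap
    push Not at gap
    have c : Continuous fun z => dot z φ := cdot.comp (continuous_const.prodMk continuous_id)
    let ℬ := {C ∈ 𝒞 | p + d ≤ Arc.supp C φ}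
    have inB : ∀ z ∈ Ω, p ≤ dot z φ → ∃ C ∈ ℬ, z ∈ frontier C := fun z hz k => by
      obtain ⟨C, a, b⟩ := cov' z hz φ (by linarith)
      have := (sp C a φ).2 z ((h1 C a).1.isClosed.frontier_subset b)
      exact ⟨C, ⟨a, gap C a (by linarith)⟩, b⟩
    have sub : ∀ C ∈ ℬ, C₀ ⊆ C := fun C hC => (ch.total m0 hC.1).resolve_right fun k => by
      obtain ⟨z, a, b⟩ := (sp C hC.1 φ).1
      linarith [mar z (k a) φ, hC.2]
    have ph : p < h φ := by
      have := mo mψ ⟨by linarith, le_rfl⟩ (show ψ < φ by linarith)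
      simpa only [K_self] using this
    obtain ⟨z₁, a1, b1⟩ := top φ p ph
    obtain ⟨C₁, c1, -⟩ := inB z₁ a1 b1.le
    haveI : Nonempty ℬ := ⟨⟨C₁, c1⟩⟩
    have cl : IsClosed {z | p + d ≤ dot z φ} := isClosed_le continuous_const c
    obtain ⟨y, hy⟩ := IsCompact.nonempty_iInter_of_directed_nonempty_isCompact_isClosed
      (fun C : ℬ => C.1 ∩ {z | p + d ≤ dot z φ})
      (fun C C' => (ch.total C.2.1 C'.2.1).elim
        (fun k => ⟨C, subset_rfl, inter_subset_inter_left _ k⟩)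
        fun k => ⟨C', inter_subset_inter_left _ k, subset_rfl⟩)
      (fun C => by
        obtain ⟨z, a, b⟩ := (sp C C.2.1 φ).1
        exact ⟨z, a, C.2.2.trans b.ge⟩)
      (fun C => (h1 C C.2.1).1.inter_right cl) fun C => (h1 C C.2.1).1.isClosed.inter cl
    rw [mem_iInter] at hy
    obtain ⟨w, hw⟩ := (h1 C₀ m0).2.2.1
    have w1 : dot w φ < p := by linarith [mar w (interior_subset hw) φ]
    have y1 : p + d ≤ dot y φ := (hy ⟨C₁, c1⟩).2
    have g0 : 0 < dot y φ - dot w φ := by linarith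
    have ins : ∀ C ∈ ℬ, ((dot y φ - p) / (dot y φ - dot w φ)) • w +
        ((p - dot w φ) / (dot y φ - dot w φ)) • y ∈ interior C := fun C hC =>
      (h1 C hC.1).2.1.combo_interior_self_mem_interior (interior_mono (sub C hC) hw)
        (hy ⟨C, hC⟩).1 (div_pos (by linarith) g0) (div_nonneg (by linarith) g0.le)
        (by field_simp; ring)
    obtain ⟨C, a, b⟩ := inB _ ((h1 C₁ c1.1).2.2.2.1 (interior_subset (ins C₁ c1))) (by
      have : ∀ s t : ℝ, dot (s • w + t • y) φ = s * dot w φ + t * dot y φ := fun s t => by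
        simp only [dot, Complex.add_re, Complex.add_im, Complex.smul_re, Complex.smul_im,
          smul_eq_mul]
        ring
      rw [this]
      apply le_of_eq
      field_simp
      ring)
    exact b.2 (ins C a)
  obtain ⟨C, hC, s1, s2⟩ := main
  obtain ⟨c1, -, c3, c4, c5⟩ := h1 C hC
  obtain ⟨f, G, hf⟩ := caustic_graph H c1 c3 (fun z hz => lt z (c4 hz)) c5
  obtain ⟨a, a1, a2, a3⟩ := hf φ
  have b1 : ψ - ρ < a := (mo.lt_iff_lt m1 (Ioo_subset_Icc_self a1)).1 (by linarith)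
  have b2 : a < ψ + ρ := (mo.lt_iff_lt (Ioo_subset_Icc_self a1) m2).1 (by linarith)
  exact ⟨f, G, a, abs_lt.2 ⟨by linarith, by linarith⟩, abs_lt.2 ⟨by linarith, by linarith⟩⟩

/-- the quadratic form of an ellipse with squared half axes `A`, `B` -/
noncomputable def QF (A B : ℝ) (w : ℂ) : ℝ := w.re ^ 2 / A + w.im ^ 2 / B

theorem touch_ell {A B : ℝ} (A0 : 0 < A) (B0 : 0 < B) {p v : ℂ} (v0 : v ≠ 0) :
    Touches {w | QF A B w ≤ 1} p v ↔
      (v.re * p.im - v.im * p.re) ^ 2 = A * v.im ^ 2 + B * v.re ^ 2 := by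
  have cr : ∀ z, (conj v * (z - p)).im =
      (v.re * z.im - v.im * z.re) - (v.re * p.im - v.im * p.re) := fun z => by
    simp only [Complex.mul_im, Complex.conj_re, Complex.conj_im, Complex.sub_re, Complex.sub_im]
    ring
  have S0 : 0 < A * v.im ^ 2 + B * v.re ^ 2 := by
    rcases eq_or_ne v.re 0 with a | a
    · have : v.im ≠ 0 := fun b => v0 (Complex.ext a b)
      positivity
    · positivity
  obtain ⟨R, R0, R2⟩ : ∃ R, 0 < R ∧ R ^ 2 = A * v.im ^ 2 + B * v.re ^ 2 :=
    ⟨_, sqrt_pos.2 S0, sq_sqrt S0.le⟩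
  have bd : ∀ z, QF A B z ≤ 1 → -R ≤ v.re * z.im - v.im * z.re ∧ v.re * z.im - v.im * z.re ≤ R :=
    fun z hz => by
      refine abs_le_of_sq_le_sq' ?_ R0.le
      have e : (A * v.im ^ 2 + B * v.re ^ 2) * QF A B z - (v.re * z.im - v.im * z.re) ^ 2 =
          (A * v.im * z.im + B * v.re * z.re) ^ 2 / (A * B) := by
        unfold QF; field_simp; ring
      have : 0 ≤ (A * v.im * z.im + B * v.re * z.re) ^ 2 / (A * B) := by positivity
      nlinarith
  have ex : ∀ σ : ℝ, σ ^ 2 = 1 → ∃ z, QF A B z ≤ 1 ∧ v.re * z.im - v.im * z.re = σ * R :=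
    fun σ e => ⟨⟨-(σ * A * v.im / R), σ * B * v.re / R⟩, by
      apply le_of_eq
      simp only [QF]
      field_simp
      rw [e, R2]; ring, by
      field_simp
      rw [R2]; ring⟩
  obtain ⟨z1, a1, b1⟩ := ex 1 (by norm_num)
  obtain ⟨z2, a2, b2⟩ := ex (-1) (by norm_num)
  simp only [Touches, cr, mem_setOf_eq, ← R2]
  constructor
  · rintro ⟨⟨z, a, b⟩, c | c⟩
    · rw [show v.re * p.im - v.im * p.re = -R by linarith [c z2 a2, (bd z a).1], neg_sq]
    · rw [show v.re * p.im - v.im * p.re = R by linarith [c z1 a1, (bd z a).2]]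
  · intro e
    rcases sq_eq_sq_iff_eq_or_eq_neg.1 e with e | e
    · exact ⟨⟨z1, a1, by linarith⟩, Or.inr fun z hz => by linarith [(bd z hz).2]⟩
    · exact ⟨⟨z2, a2, by linarith⟩, Or.inl fun z hz => by linarith [(bd z hz).1]⟩

theorem touch_rot {E : Set ℂ} {c u p v : ℂ} (hu : conj u * u = 1) :
    Touches {z | (z - c) * u ∈ E} p v ↔ Touches E ((p - c) * u) (v * u) := by
  have e : ∀ z, conj (v * u) * ((z - c) * u - (p - c) * u) = conj v * (z - p) := fun z => by
    rw [map_mul]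
    linear_combination conj v * (z - p) * hu
  have su : ∀ w, (c + w * conj u - c) * u = w := fun w => by linear_combination w * hu
  have al : ∀ P : ℂ → Prop, (∀ w ∈ E, P (conj (v * u) * (w - (p - c) * u))) ↔
      ∀ z ∈ {z | (z - c) * u ∈ E}, P (conj v * (z - p)) := fun P =>
    ⟨fun k z hz => e z ▸ k _ hz, fun k w hw => by
      have := k (c + w * conj u) (by rwa [mem_setOf_eq, su])
      rwa [← e, su] at this⟩
  refine and_congr ⟨?_, ?_⟩ (or_congr (al fun x => 0 ≤ x.im).symm (al fun x => x.im ≤ 0).symm)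
  · rintro ⟨z, a, b⟩
    exact ⟨_, a, by rwa [e]⟩
  · rintro ⟨w, a, b⟩
    exact ⟨c + w * conj u, by rwa [mem_setOf_eq, su], by rwa [← e, su]⟩

theorem nested_of_ellipse {L : ℝ} {Γ : ℝ → ℂ} (T : Arc.Table Ω L Γ) (E : Arc.IsEllipse Ω) :
    NestedCaustics Ω Γ := by
  obtain ⟨c, a, b, φ, a0, b0, e⟩ := E
  obtain ⟨op, bo, -, -, sm, -, -, fr, un, -⟩ := T
  set u := Complex.exp (-(φ * Complex.I)) with hu
  have u1 : ‖u‖ = 1 := by
    rw [hu, ← neg_mul, ← Complex.ofReal_neg, Complex.norm_exp_ofReal_mul_I]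
  have uu : conj u * u = 1 := by rw [Complex.conj_mul', u1]; simp
  have e' : Ω = {z | QF (a ^ 2) (b ^ 2) ((z - c) * u) < 1} := by simpa only [QF, div_pow] using e
  have cQ : ∀ A B, Continuous fun z => QF A B ((z - c) * u) := fun A B => by
    unfold QF; fun_prop
  have hom : ∀ A B (t : ℝ) z, QF A B ((c + t * (z - c) - c) * u) = t ^ 2 * QF A B ((z - c) * u) :=
    fun A B t z => by
      rw [add_sub_cancel_left, mul_assoc]
      simp only [QF, Complex.re_ofReal_mul, Complex.im_ofReal_mul]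
      ring
  have on : ∀ s, QF (a ^ 2) (b ^ 2) ((Γ s - c) * u) = 1 := fun s =>
    frontier_lt_subset_eq (cQ _ _) continuous_const (e' ▸ fr ▸ mem_range_self s)
  have dΓ : ∀ s, HasDerivAt Γ (deriv Γ s) s := fun s =>
    (sm.differentiable (by simp) s).hasDerivAt
  have tg : ∀ s, ((Γ s - c) * u).re * (deriv Γ s * u).re / a ^ 2 +
      ((Γ s - c) * u).im * (deriv Γ s * u).im / b ^ 2 = 0 := fun s => by
    have d := ((dΓ s).sub_const c).mul_const u
    have d1 := Complex.reCLM.hasFDerivAt.comp_hasDerivAt s d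
    have d2 := Complex.imCLM.hasFDerivAt.comp_hasDerivAt s d
    have d3 : HasDerivAt (fun s => QF (a ^ 2) (b ^ 2) ((Γ s - c) * u)) _ s :=
      ((d1.pow 2).div_const _).add ((d2.pow 2).div_const _)
    rw [funext on] at d3
    have := d3.unique (hasDerivAt_const s 1)
    simp only [Function.comp, Complex.reCLM_apply, Complex.imCLM_apply] at this
    norm_num at this ⊢
    linear_combination this / 2
  set m := min (a ^ 2) (b ^ 2) with hm
  have m0 : 0 < m := by positivity
  have m1 : m ≤ a ^ 2 := min_le_left _ _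
  have m2 : m ≤ b ^ 2 := min_le_right _ _
  let C : ℝ → Set ℂ := fun l => {z | (z - c) * u ∈ {w | QF (a ^ 2 - l) (b ^ 2 - l) w ≤ 1}}
  have mono : ∀ l l' w, l ≤ l' → l' < m →
      QF (a ^ 2 - l) (b ^ 2 - l) w ≤ QF (a ^ 2 - l') (b ^ 2 - l') w := fun l l' w h1 h2 =>
    add_le_add (div_le_div_of_nonneg_left (sq_nonneg _) (by linarith) (by linarith))
      (div_le_div_of_nonneg_left (sq_nonneg _) (by linarith) (by linarith))
  have sub : ∀ l ∈ Ioo 0 m, C l ⊆ Ω := fun l hl z hz => by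
    rw [e']
    have k : QF (a ^ 2 - l) (b ^ 2 - l) ((z - c) * u) ≤ 1 := hz
    show QF _ _ _ < 1
    generalize (z - c) * u = w at k
    have p1 : 0 < a ^ 2 - l := by linarith [hl.2]
    have p2 : 0 < b ^ 2 - l := by linarith [hl.2]
    have := hl.1
    have M0 : 0 < max (a ^ 2) (b ^ 2) := by positivity
    have q : ∀ x A : ℝ, 0 < A - l → A ≤ max (a ^ 2) (b ^ 2) →
        x ^ 2 / A ≤ (1 - l / max (a ^ 2) (b ^ 2)) * (x ^ 2 / (A - l)) := fun x A k1 k2 => by
      have A0 : 0 < A := by linarith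
      rw [show x ^ 2 / A = (1 - l / A) * (x ^ 2 / (A - l)) by field_simp]
      exact mul_le_mul_of_nonneg_right
        (sub_le_sub_left (div_le_div_of_nonneg_left this.le A0 k2) 1) (by positivity)
    have q1 := q w.re _ p1 (le_max_left _ _)
    have q2 := q w.im _ p2 (le_max_right _ _)
    have q3 : 0 < l / max (a ^ 2) (b ^ 2) := by positivity
    have q4 : l / max (a ^ 2) (b ^ 2) ≤ 1 :=
      (div_le_one M0).2 (by linarith [le_max_left (a ^ 2) (b ^ 2)])
    unfold QF at k ⊢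
    nlinarith
  have cpt : ∀ l ∈ Ioo 0 m, IsCompact (C l) := fun l hl =>
    Metric.isCompact_of_isClosed_isBounded (isClosed_le (cQ _ _) continuous_const)
      (bo.subset (sub l hl))
  have mh : m / 2 ∈ Ioo 0 m := ⟨half_pos m0, half_lt_self m0⟩
  obtain ⟨ε, ε0, hε⟩ := (cpt _ mh).exists_thickening_subset_open op (sub _ mh)
  refine ⟨ε, C '' Ioo 0 m, ε0, ?_, ?_, fun z hz k => ?_⟩
  · rintro _ ⟨l, hl, rfl⟩
    have p1 : 0 < a ^ 2 - l := by linarith [hl.2]
    have p2 : 0 < b ^ 2 - l := by linarith [hl.2]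
    refine ⟨cpt l hl, fun x hx y hy s t s0 t0 st => ?_, ⟨c, ?_⟩, sub l hl, fun s δ => ?_⟩
    · have k1 : QF _ _ _ ≤ 1 := hx
      have k2 : QF _ _ _ ≤ 1 := hy
      show QF _ _ _ ≤ 1
      rw [show (s • x + t • y - c) * u = s * ((x - c) * u) + t * ((y - c) * u) by
        have : (s : ℂ) + t = 1 := by exact_mod_cast st
        simp only [Complex.real_smul]
        linear_combination c * u * this]
      generalize (x - c) * u = v at k1
      generalize (y - c) * u = w at k2
      have q : ∀ x y A : ℝ, 0 < A → (s * x + t * y) ^ 2 / A ≤ s * (x ^ 2 / A) + t * (y ^ 2 / A) :=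
        fun x y A A0 => by
          rw [← mul_div_assoc, ← mul_div_assoc, ← add_div]
          refine div_le_div_of_nonneg_right ?_ A0.le
          obtain rfl : t = 1 - s := by linarith
          nlinarith [mul_nonneg (mul_nonneg s0 t0) (sq_nonneg (x - y))]
      simp only [QF, Complex.add_re, Complex.add_im, Complex.re_ofReal_mul,
        Complex.im_ofReal_mul] at k1 k2 ⊢
      nlinarith [q v.re w.re _ p1, q v.im w.im _ p2, mul_le_mul_of_nonneg_left k1 s0,
        mul_le_mul_of_nonneg_left k2 t0]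
    · refine mem_interior.2 ⟨_, fun z hz => le_of_lt hz, isOpen_lt (cQ _ _) continuous_const, ?_⟩
      show QF _ _ _ < 1
      simp [QF]
    · have n1 : (deriv Γ s * u).re ^ 2 + (deriv Γ s * u).im ^ 2 = 1 := by
        have := Complex.sq_norm (deriv Γ s * u)
        rw [norm_mul, un, u1, Complex.normSq_apply] at this
        linarith
      have t0 : deriv Γ s * u ≠ 0 := fun k => by simp [k] at n1
      rw [touch_rot uu, touch_rot uu, mul_right_comm _ _ u, mul_right_comm _ _ u,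
        touch_ell p1 p2 (mul_ne_zero t0 (Complex.exp_ne_zero _)),
        touch_ell p1 p2 (mul_ne_zero t0 (Complex.exp_ne_zero _)), ← neg_mul,
        ← Complex.ofReal_neg]
      have o := on s
      have g := tg s
      generalize (Γ s - c) * u = w at o g
      generalize deriv Γ s * u = t at n1 g
      simp only [QF, Complex.mul_re, Complex.mul_im, Complex.exp_ofReal_mul_I_re,
        Complex.exp_ofReal_mul_I_im, cos_neg, sin_neg] at o ⊢
      have o' : b ^ 2 * w.re ^ 2 + a ^ 2 * w.im ^ 2 = a ^ 2 * b ^ 2 := by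
        field_simp at o; linarith
      have g' : b ^ 2 * w.re * t.re + a ^ 2 * w.im * t.im = 0 := by
        field_simp at g; linarith
      have key : t.re * t.im * (a ^ 2 - b ^ 2) =
          (t.re * w.im - t.im * w.re) * (-(t.im * w.im) - t.re * w.re) := by
        refine mul_left_cancel₀ (by positivity : a ^ 2 * b ^ 2 ≠ 0) ?_
        linear_combination (-(t.re * t.im * (a ^ 2 - b ^ 2))) * o' +
          (a ^ 2 * w.im * t.re * b ^ 2 * 0 + (a ^ 2 * w.im * t.re - b ^ 2 * w.re * t.im)) * g'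
      intro k
      linear_combination k - 4 * cos δ * sin δ * key
  · rintro _ ⟨l, hl, rfl⟩ _ ⟨l', hl', rfl⟩ -
    rcases le_total l l' with k | k
    · exact Or.inr fun z hz => (mono l l' _ k hl'.2).trans hz
    · exact Or.inl fun z hz => (mono l' l _ k hl.2).trans hz
  · have out : 1 < QF (a ^ 2 - m / 2) (b ^ 2 - m / 2) ((z - c) * u) := by
      by_contra k2
      obtain ⟨y, y1, y2⟩ := (Metric.infDist_lt_iff (fr ▸ range_nonempty Γ)).1 k
      rw [op.frontier_eq] at y1
      exact y1.2 (hε (Metric.mem_thickening_iff.2 ⟨z, not_lt.1 k2, by rwa [dist_comm]⟩))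
    have inn : QF (a ^ 2 - 0) (b ^ 2 - 0) ((z - c) * u) < 1 := by
      rw [e'] at hz
      simpa using hz
    have cl : ContinuousOn (fun l => QF (a ^ 2 - l) (b ^ 2 - l) ((z - c) * u)) (Icc 0 (m / 2)) :=
      (continuousOn_const.div (by fun_prop) fun l hl => by linarith [hl.2]).add
        (continuousOn_const.div (by fun_prop) fun l hl => by linarith [hl.2])
    obtain ⟨l, hl, e1⟩ := intermediate_value_Ioo mh.1.le cl ⟨inn, out⟩
    simp only at e1
    refine ⟨_, ⟨l, ⟨hl.1, hl.2.trans mh.2⟩, rfl⟩, subset_closure e1.le, fun k2 => ?_⟩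
    have ct : Continuous fun t : ℝ => c + t * (z - c) := by fun_prop
    have ev : ∀ᶠ t : ℝ in 𝓝 1, c + t * (z - c) ∈ C l :=
      ct.continuousAt.eventually (by simpa using mem_interior_iff_mem_nhds.1 k2)
    obtain ⟨t, t1, t2⟩ := ((frequently_gt_nhds (1 : ℝ)).and_eventually ev).exists
    have t3 : QF _ _ _ ≤ 1 := t2
    rw [hom, e1] at t3
    nlinarith

end Vale.Agent.N097
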