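import Vale.Agent.P097B.ArcD

/-! # N097 : forms of integrability of a billiard near the boundary -/

namespace Vale.Agent.N097

open Real Vale.Agent.P097B.Arc
open scoped ComplexConjugate

/-- Integrable near the boundary, as in the question: an open set `U` of phase points, invariant
under the billiard map, contains all the points at angle less than `η` and is the disjoint union of
invariant rotational curves, which are horizontal in the charts of a topological atlas of `U`. -/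
def Foliated (L : ℝ) (Γ : ℝ → ℂ) : Prop :=
  ∃ (η : ℝ) (U : Set (Phase L)) (leaves : Set (Set (Phase L))), 0 < η ∧ IsOpen U ∧
    {x : Phase L | (x.2 : ℝ) < η} ⊆ U ∧ (∀ x y, Bounce L Γ x y → (x ∈ U ↔ y ∈ U)) ∧
    (∀ F ∈ leaves, ∃ c, RotCurve L Γ c ∧ F = Set.range c) ∧ ⋃₀ leaves = U ∧
    leaves.Pairwise Disjoint ∧
    ∀ x ∈ U, ∃ φ : OpenPartialHomeomorph (Phase L) (ℝ × ℝ), x ∈ φ.source ∧ φ.source ⊆ U ∧
      ∀ y ∈ φ.source, ∀ z ∈ φ.source, (φ y).2 = (φ z).2 → ∃ F ∈ leaves, y ∈ F ∧ z ∈ F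

/-- The invariant rotational curves are dense among the phase points at angle less than `η`. -/
def DenseCurves (L : ℝ) (Γ : ℝ → ℂ) : Prop :=
  ∃ η : ℝ, 0 < η ∧ {x : Phase L | (x.2 : ℝ) < η} ⊆
    closure {x | ∃ c, RotCurve L Γ c ∧ x ∈ Set.range c}

/-- A billiard trajectory: `s j` is the arclength position of the `j`-th impact, counted without
reduction modulo `L`, and `δ j` is the angle there. -/
def Traj (L : ℝ) (Γ : ℝ → ℂ) (s : ℕ → ℝ) (δ : ℕ → Set.Ioo (0 : ℝ) π) : Prop :=
  ∀ j, s j < s (j + 1) ∧ s (j + 1) < s j + L ∧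
    Bounce L Γ ((s j : AddCircle L), δ j) ((s (j + 1) : AddCircle L), δ (j + 1))

/-- For each reduced fraction `p / n < η` some invariant rotational curve consists of trajectories
which close after `n` bounces and `p` turns. -/
def RationalCurves (L : ℝ) (Γ : ℝ → ℂ) : Prop :=
  ∃ η : ℝ, 0 < η ∧ ∀ p n : ℕ, 0 < p → 0 < n → Nat.Coprime p n → (p : ℝ) / n < η →
    ∃ c, RotCurve L Γ c ∧ ∀ s δ, Traj L Γ s δ → ((s 0 : AddCircle L), δ 0) ∈ Set.range c →
      s n = s 0 + p * L ∧ δ n = δ 0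

/-- No conjugate points near the boundary: two trajectories which leave one boundary point at
different angles less than `η` never have their `n`-th impact at the same position. -/
def Disconjugate (L : ℝ) (Γ : ℝ → ℂ) : Prop :=
  ∃ η : ℝ, 0 < η ∧ ∀ s δ s' δ', Traj L Γ s δ → Traj L Γ s' δ' → s 0 = s' 0 →
    (δ 0 : ℝ) < η → (δ' 0 : ℝ) < η → δ 0 ≠ δ' 0 → ∀ n, 0 < n → s n ≠ s' n

/-- The greatest length of a trajectory which closes after `n` bounces and `p` turns. -/
noncomputable def maxLength (L : ℝ) (Γ : ℝ → ℂ) (n p : ℕ) : ℝ :=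
  sSup {ℓ | ∃ s δ, Traj L Γ s δ ∧ s n = s 0 + p * L ∧ δ n = δ 0 ∧
    ℓ = ∑ j ∈ Finset.range n, ‖Γ (s (j + 1)) - Γ (s j)‖}

/-- The greatest length per bounce is a differentiable function of the rotation number `p / n` in
an interval `(0, η)`. -/
def SmoothSpectrum (L : ℝ) (Γ : ℝ → ℂ) : Prop :=
  ∃ (η : ℝ) (β : ℝ → ℝ), 0 < η ∧ DifferentiableOn ℝ β (Set.Ioo 0 η) ∧
    ∀ p n : ℕ, 0 < p → 0 < n → Nat.Coprime p n → (p : ℝ) / n < η →
      maxLength L Γ n p = n * β (p / n)

/-- The line through `p` with direction `v` meets `K` and leaves it on one side. -/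
def Touches (K : Set ℂ) (p v : ℂ) : Prop :=
  (∃ z ∈ K, (conj v * (z - p)).im = 0) ∧
    ((∀ z ∈ K, 0 ≤ (conj v * (z - p)).im) ∨ ∀ z ∈ K, (conj v * (z - p)).im ≤ 0)

/-- A convex caustic: a convex body inside the table such that a line which touches it still
touches it after reflection at the boundary. -/
def Caustic (Ω : Set ℂ) (Γ : ℝ → ℂ) (K : Set ℂ) : Prop :=
  IsCompact K ∧ Convex ℝ K ∧ (interior K).Nonempty ∧ K ⊆ Ω ∧ ∀ s δ : ℝ,
    Touches K (Γ s) (deriv Γ s * Complex.exp (-(δ * Complex.I))) →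
      Touches K (Γ s) (deriv Γ s * Complex.exp (δ * Complex.I))

/-- The boundary curves of a nested family of convex caustics cover the part of the table near
its boundary. -/
def NestedCaustics (Ω : Set ℂ) (Γ : ℝ → ℂ) : Prop :=
  ∃ (ε : ℝ) (family : Set (Set ℂ)), 0 < ε ∧ (∀ K ∈ family, Caustic Ω Γ K) ∧
    IsChain (· ⊆ ·) family ∧
    ∀ z ∈ Ω, Metric.infDist z (frontier Ω) < ε → ∃ K ∈ family, z ∈ frontier K

end Vale.Agent.N097
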