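import Vale.Agent.N097.Len
import Vale.Agent.N097.Defs

/-! # N097 : limits of invariant graphs, and convex caustics -/

set_option linter.all false

namespace Vale.Agent.N097

open Real Set Filter Topology Vale.Agent.P097 Vale.Agent.P097B
open scoped ComplexConjugate

variable {h f : ℝ → ℝ} {η : ℝ}

/-- the invariant graphs are dense -/
def Den (h : ℝ → ℝ) (η : ℝ) : Prop :=
  ∀ ψ δ, 0 < δ → δ < η → δ < π → ∀ r, 0 < r →
    ∃ f, InvGraph h f ∧ ∃ x, |x - ψ| < r ∧ |f x - δ| < r

theorem lip (H : SmoothTable h) (G : InvGraph h f) (x y : ℝ) : |f x - f y| ≤ |x - y| := by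
  obtain ⟨F, -, -, -, -, a, b, -⟩ := Sm.invG_exists_data (adm H) G
  wlog c : x ≤ y generalizing x y
  · rw [abs_sub_comm, abs_sub_comm x]; exact this y x (not_le.1 c).le
  have a1 := a.monotone c
  have b1 := b.monotone c
  rw [abs_of_nonpos (sub_nonpos.2 c), abs_le]
  constructor <;> linarith

theorem cos_lin {t : ℝ} (h0 : 0 ≤ t) (h1 : t ≤ π) : 1 - cos t ≤ 2 * t := by
  nlinarith [one_sub_sq_div_two_le_cos (x := t), pi_lt_four]

theorem Den.collar (H : SmoothTable h) (η0 : 0 < η) (D : Den h η) : ∃ η', 0 < η' ∧ Collar h η' := by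
  obtain ⟨B, B0, hB⟩ := harn H
  have hp := pi_pos
  have E0 := exp_pos (B * (4 * π))
  refine ⟨min (min η π) (1 / (2 * exp (B * (4 * π)))), by positivity, fun ψ δ d0 d1 => ?_⟩
  simp only [lt_min_iff] at d1
  obtain ⟨⟨d1, d2⟩, d3⟩ := d1
  choose f G x hx using fun k : ℕ => D ψ δ d0 d1 d2 (1 / ((k : ℝ) + 1)) (by positivity)
  choose F S F1 F2 F3 _ using fun k => Sm.invG_exists_F' (adm H) (G k)
  have lim : ∀ (u : ℕ → ℝ) (a b : ℝ), (∀ k, u k ∈ Icc a b) →
      ∃ c ∈ Icc a b, Tendsto u (hyperfilter ℕ) (𝓝 c) := fun u a b hu =>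
    isCompact_Icc.ultrafilter_le_nhds ((hyperfilter ℕ).map u)
      (le_principal_iff.2 (mem_map.2 (univ_mem' hu)))
  choose g g1 g2 using fun z => lim (fun k => f k z) 0 π
    fun k => ⟨((G k).2.2.1 z).1.le, ((G k).2.2.1 z).2.le⟩
  choose T T1 T2 using fun z => lim (fun k => F k z) z (z + 2 * π)
    fun k => ⟨(step_lt (S k z)).1.le, (step_lt (S k z)).2.le⟩
  have gψ : g ψ = δ := by
    refine tendsto_nhds_unique (g2 ψ) (Tendsto.mono_left ?_ Nat.hyperfilter_le_atTop)
    refine tendsto_iff_dist_tendsto_zero.2 (squeeze_zero (fun _ => dist_nonneg) (fun k => ?_)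
      (by simpa using tendsto_one_div_add_atTop_nhds_zero_nat.const_mul (2 : ℝ)))
    have a := lip H (G k) ψ (x k)
    have b := abs_sub_le (f k ψ) (f k (x k)) δ
    rw [abs_sub_comm ψ] at a
    rw [Real.dist_eq, ← one_div]
    linarith [(hx k).1, (hx k).2]
  have gl : ∀ a b, |g a - g b| ≤ |a - b| := fun a b =>
    le_of_tendsto' ((g2 a).sub (g2 b)).abs fun k => lip H (G k) a b
  have gp : Function.Periodic g (2 * π) := fun z =>
    tendsto_nhds_unique (g2 _) ((g2 z).congr fun k => ((G k).2.1 z).symm)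
  have Tm : Monotone T := fun a b c =>
    le_of_tendsto_of_tendsto' (T2 a) (T2 b) fun k => (F3 k).monotone c
  have Tp : ∀ z, T (z + 2 * π) = T z + 2 * π := fun z =>
    tendsto_nhds_unique (T2 _) (((T2 z).add_const _).congr fun k => by
      have a := step_shift H (S k z) 1
      have b := S k (z + 2 * π)
      rw [(G k).2.1 z] at b
      simp only [Int.cast_one, one_mul] at a
      exact (step_uniq H a b).1)
  have gT : ∀ z, Tendsto (fun k => f k (F k z)) (hyperfilter ℕ) (𝓝 (g (T z))) := fun z => by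
    have : Tendsto (fun k => f k (F k z) - f k (T z)) (hyperfilter ℕ) (𝓝 0) :=
      tendsto_zero_iff_abs_tendsto_zero _ |>.2 (squeeze_zero (fun _ => abs_nonneg _)
        (fun k => lip H (G k) _ _) (by simpa using ((T2 z).sub_const (T z)).abs))
    simpa using this.add (g2 (T z))
  have e1 : ∀ z, T z = z + g z + g (T z) := fun z =>
    tendsto_nhds_unique (T2 z) ((((g2 z).const_add z).add (gT z)).congr fun k => (F1 k z).symm)
  have cK := Sm.continuous_K (adm H).an
  have e2 : ∀ z, K h (z + g z) z = K h (z + g z) (T z) := fun z =>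
    tendsto_nhds_unique
      ((cK.tendsto (z + g z, z)).comp (((g2 z).const_add z).prodMk_nhds tendsto_const_nhds))
      (((cK.tendsto (z + g z, T z)).comp (((g2 z).const_add z).prodMk_nhds (T2 z))).congr
        fun k => (F2 k z).symm)
  have mo := Sm.K_strictMono (adm H)
  have an := Sm.K_strictAnti (adm H)
  have mT : ∀ z, T z ∈ Icc (z + g z) (z + g z + π) := fun z =>
    ⟨by linarith [e1 z, (g1 (T z)).1], by linarith [e1 z, (g1 (T z)).2]⟩
  have st : ∀ z, 0 < g z → g z < π → Step h z (g z) (T z) (g (T z)) := fun z a b => by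
    have m : z ∈ Icc (z + g z - π) (z + g z) := ⟨by linarith, by linarith⟩
    refine stepK H a b ((g1 _).1.lt_of_ne fun c => ?_) ((g1 _).2.lt_of_ne fun c => ?_) (e1 z) (e2 z)
    · have := mo _ m ⟨by linarith, le_rfl⟩ (show z < z + g z by linarith)
      simp only [e2 z] at this
      rw [e1 z, ← c, add_zero] at this
      exact lt_irrefl _ this
    · have := mo _ ⟨le_rfl, by linarith⟩ m (show z + g z - π < z by linarith)
      simp only [e2 z, K_far H] at this
      rw [e1 z, c] at this
      exact lt_irrefl _ this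
  have orb : ∀ j, Step h (T^[j] ψ) (g (T^[j] ψ)) (T^[j + 1] ψ) (g (T^[j + 1] ψ)) := fun j => by
    induction j with
    | zero => exact st ψ (gψ ▸ d0) (gψ ▸ d2)
    | succ k ih =>
      rw [Function.iterate_succ_apply' T (k + 1)]
      exact st _ ih.2.2.1 ih.2.2.2.1
  have sg : ∀ n, Seg h n (fun j => T^[j] ψ) fun j => g (T^[j] ψ) := fun n j _ => orb j
  have c0 : 0 < 1 - cos δ := by
    have := cos_lt_cos_of_nonneg_of_le_pi le_rfl d2.le d0
    rw [cos_zero] at this
    linarith
  have all : ∀ z, 0 < g z ∧ g z < π := fun z => by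
    refine ⟨(g1 z).1.lt_of_ne fun c => ?_, (g1 z).2.lt_of_ne fun c => ?_⟩
    · obtain ⟨w, ⟨w1, -⟩, w2⟩ := gp.exists_mem_Ioc (by positivity) z ψ
      rw [w2] at c
      have fx : T w = w := by
        have a := e2 w
        have b := mT w
        rw [← c, add_zero] at a b
        exact ((an w).injOn ⟨le_rfl, by linarith⟩ b a).symm
      have up : ∀ j, T^[j] ψ ≤ w := fun j => by
        induction j with
        | zero => exact w1.le
        | succ k ih => rw [Function.iterate_succ_apply', ← fx]; exact Tm ih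
      have E := exp_pos (B * (w - ψ))
      have lo : ∀ j : ℕ, ψ + j * ((1 - cos δ) / (2 * exp (B * (w - ψ)))) ≤ T^[j] ψ := fun j => by
        induction j with
        | zero => simp
        | succ k ih =>
          obtain ⟨a1, a2, a3, -, a5, -⟩ := orb k
          have u := (Seg.harn hB (sg k) (Nat.zero_le k) le_rfl).1
          simp only [Function.iterate_zero, id, gψ] at u
          have v : exp (B * (T^[k] ψ - ψ)) ≤ exp (B * (w - ψ)) :=
            exp_le_exp.2 (mul_le_mul_of_nonneg_left (by linarith [up k]) B0)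
          have y := u.trans (mul_le_mul v (cos_lin a1.le a2.le)
            (by linarith [cos_le_one (g (T^[k] ψ))]) E.le)
          have : (1 - cos δ) / (2 * exp (B * (w - ψ))) ≤ g (T^[k] ψ) := by
            rw [div_le_iff₀ (by positivity)]; linarith
          push_cast
          linarith
      obtain ⟨j, hj⟩ := exists_nat_gt ((w - ψ) / ((1 - cos δ) / (2 * exp (B * (w - ψ)))))
      rw [div_lt_iff₀ (by positivity)] at hj
      linarith [lo j, up j]
    · obtain ⟨w, ⟨w1, w3⟩, w2⟩ := gp.exists_mem_Ioc (by positivity) z (ψ - 2 * π)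
      rw [w2] at c
      have fx : T w = w + 2 * π := by
        have a := e2 w
        have b := mT w
        rw [c] at a b
        have := K_far H (w + π)
        rw [add_sub_cancel_right, a] at this
        rw [(an _).injOn b ⟨by linarith, le_rfl⟩ this]
        ring
      have y1 : w + 2 * π ≤ T ψ := fx ▸ Tm (by linarith)
      have y2 : w + 2 * π + 2 * π ≤ T (T ψ) := by
        have := Tm y1
        rwa [Tp, fx] at this
      have sm : ∀ j ≤ 2, g (T^[j] ψ) < π / 2 := fun j hj => by
        have u := (Seg.harn hB (sg 2) (Nat.zero_le j) hj).2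
        simp only [Function.iterate_zero, id, gψ] at u
        have t : T^[j] ψ - ψ ≤ 4 * π := by
          have := (sg 2).mono hj le_rfl
          have a := (step_lt (orb 0)).2
          have b := (step_lt (orb 1)).2
          simp only [Function.iterate_zero, id, zero_add] at a
          linarith
        have v : exp (B * (T^[j] ψ - ψ)) ≤ exp (B * (4 * π)) :=
          exp_le_exp.2 (mul_le_mul_of_nonneg_left t B0)
        have y := u.trans (mul_le_mul v (cos_lin d0.le d2.le) c0.le E0.le)
        rw [lt_div_iff₀ (by positivity)] at d3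
        by_contra k
        have := cos_nonpos_of_pi_div_two_le_of_le (not_lt.1 k) (by linarith [(g1 (T^[j] ψ)).2])
        linarith
      have a := e1 ψ
      have b := e1 (T ψ)
      have s0 := sm 0 (by omega)
      have s1 := sm 1 (by omega)
      have s2 := sm 2 le_rfl
      simp only [Function.iterate_zero, id, Function.iterate_succ, Function.comp] at s0 s1 s2
      linarith
  refine ⟨g, ⟨?_, gp, all, fun z => ⟨_, st z (all z).1 (all z).2⟩⟩, gψ⟩
  exact (LipschitzWith.of_dist_le_mul (K := 1) fun a b => by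
    simpa [Real.dist_eq] using gl a b).continuous

/-- the height of `z` in the direction `θ` -/
noncomputable def dot (z : ℂ) (θ : ℝ) : ℝ := z.re * cos θ + z.im * sin θ

theorem cdot : Continuous fun q : ℝ × ℂ => dot q.2 q.1 := by unfold dot; fun_prop

theorem cross (z p : ℂ) (α : ℝ) :
    (conj (Complex.I * Complex.exp (α * Complex.I)) * (z - p)).im = dot p α - dot z α := by
  simp only [dot, map_mul, Complex.conj_I, Complex.mul_re, Complex.mul_im, Complex.neg_re,
    Complex.neg_im, Complex.I_re, Complex.I_im, Complex.conj_re, Complex.conj_im,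
    Complex.exp_ofReal_mul_I_re, Complex.exp_ofReal_mul_I_im, Complex.sub_re, Complex.sub_im]
  ring

theorem supp_top {C : Set ℂ} (c : IsCompact C) (n : C.Nonempty) (θ : ℝ) :
    (∃ z ∈ C, dot z θ = Arc.supp C θ) ∧ ∀ z ∈ C, dot z θ ≤ Arc.supp C θ := by
  have k : Continuous fun z => dot z θ := cdot.comp (continuous_const.prodMk continuous_id)
  obtain ⟨z, a, b⟩ := c.exists_sSup_image_eq n k.continuousOn
  exact ⟨⟨z, a, b.symm⟩, fun z hz => le_csSup (c.image k).bddAbove ⟨z, hz, rfl⟩⟩

theorem orient {C : Set ℂ} {X Y : ℂ → ℝ} (hX : ∀ z ∈ C, X z < 0) (hY : ¬ ∀ z ∈ C, Y z = 0)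
    {a b : ℝ} (a0 : 0 < sin a) (b0 : 0 < sin b)
    (h1 : ∃ z ∈ C, X z * cos a - Y z * sin a = 0) (h2 : ∀ z ∈ C, X z * cos a - Y z * sin a ≤ 0)
    (h3 : ∃ z ∈ C, X z * cos a + Y z * sin a = 0) (h4 : ∀ z ∈ C, 0 ≤ X z * cos a + Y z * sin a)
    (h5 : ∃ z ∈ C, X z * cos b + Y z * sin b = 0) (h6 : ∀ z ∈ C, X z * cos b + Y z * sin b ≤ 0)
    (h7 : ∃ z ∈ C, X z * cos b - Y z * sin b = 0) : False := by
  obtain ⟨z1, m1, e1⟩ := h1
  obtain ⟨z2, m2, e2⟩ := h3
  obtain ⟨z3, m3, e3⟩ := h5
  obtain ⟨z4, m4, e4⟩ := h7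
  have ca : cos a = 0 := le_antisymm (by nlinarith [hX z1 m1, h4 z1 m1])
    (by nlinarith [hX z2 m2, h2 z2 m2])
  have y0 : ∀ z ∈ C, 0 ≤ Y z := fun z hz => by
    have := h4 z hz
    rw [ca] at this
    nlinarith
  have cb : cos b = 0 := le_antisymm (by nlinarith [hX z4 m4, mul_nonneg (y0 z4 m4) b0.le])
    (by nlinarith [hX z3 m3, mul_nonneg (y0 z3 m3) b0.le])
  refine hY fun z hz => le_antisymm ?_ (y0 z hz)
  have := h6 z hz
  rw [cb] at this
  nlinarith

/-- the lines which touch a caustic and leave it on their left form an invariant graph -/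
theorem caustic_graph (H : SmoothTable h) {C : Set ℂ} (c : IsCompact C)
    (ne : (interior C).Nonempty) (ins : ∀ z ∈ C, ∀ θ, dot z θ < h θ)
    (ca : ∀ ψ δ : ℝ, Touches C (bdry h ψ) (Complex.I * Complex.exp ((ψ - δ : ℝ) * Complex.I)) →
      Touches C (bdry h ψ) (Complex.I * Complex.exp ((ψ + δ : ℝ) * Complex.I))) :
    ∃ f, InvGraph h f ∧ ∀ φ, ∃ a ∈ Ioo (φ - π) φ, K h φ a = Arc.supp C φ ∧ f a = φ - a := by
  have hp := pi_pos
  have n := ne.mono interior_subset
  have sp := supp_top c n
  have ck : Continuous (Arc.supp C) := c.continuous_sSup (f := fun θ z => dot z θ) cdot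
  have pk : ∀ φ, Arc.supp C (φ + 2 * π) = Arc.supp C φ := fun φ => by simp [Arc.supp]
  have k1 : ∀ φ, Arc.supp C φ < h φ := fun φ => by
    obtain ⟨z, a, b⟩ := (sp φ).1
    exact b ▸ ins z a φ
  have k2 : ∀ φ, -h (φ + π) < Arc.supp C φ := fun φ => by
    obtain ⟨z, a⟩ := n
    have := ins z a (φ + π)
    have b := (sp φ).2 z a
    simp only [dot, cos_add_pi, sin_add_pi] at this b
    linarith
  have ex : ∀ ε : ℝ, ε = 1 ∨ ε = -1 → ∀ φ, ∃ d ∈ Ioo 0 π, kk h ε φ d = Arc.supp C φ :=
    fun ε e φ => intermediate_value_Ioo' hp.le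
      ((kk_cont H).comp (continuous_const.prodMk continuous_id)).continuousOn
      ⟨(kk_pi H e φ).trans_lt (k2 φ), (k1 φ).trans_eq (kk_zero φ).symm⟩
  choose d d1 d2 using ex (-1) (Or.inr rfl)
  have un : ∀ φ u, u ∈ Ioo 0 π → kk h (-1) φ u = Arc.supp C φ → d φ = u := fun φ u a b =>
    (kk_anti H (Or.inr rfl) φ).injOn (Ioo_subset_Icc_self (d1 φ)) (Ioo_subset_Icc_self a)
      ((d2 φ).trans b.symm)
  have cd : Continuous d :=
    cont_root (G := fun q => kk h (-1) q.1 q.2 - Arc.supp C q.1) (a := 0) (b := π)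
      ((kk_cont H).sub (ck.comp continuous_fst)).continuousOn
      (fun s a ha b hb e => (kk_anti H (Or.inr rfl) s).injOn (Ioo_subset_Icc_self ha)
        (Ioo_subset_Icc_self hb) (sub_left_inj.1 e))
      fun s => ⟨d1 s, sub_eq_zero.2 (d2 s)⟩
  have pd : ∀ φ, d (φ + 2 * π) = d φ := fun φ => un _ _ (d1 φ) (by
    rw [pk, ← d2]
    have := H.2.1
    simp only [kk, K, add_right_comm φ (2 * π), this, deriv_per this]
    congr 3 <;> ring)
  have bd : ∀ θ x, dot (bdry h x) θ = K h θ x := Arc.bdry_dot h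
  have refl : ∀ b δ', δ' ∈ Ioo 0 π → K h (b - δ') b = Arc.supp C (b - δ') →
      K h (b + δ') b = Arc.supp C (b + δ') := by
    intro b δ' m e
    let X : ℂ → ℝ := fun z => dot z b - dot (bdry h b) b
    let Y : ℂ → ℝ := fun z => dot z (b + π / 2) - dot (bdry h b) (b + π / 2)
    have ad : ∀ z γ, dot (bdry h b) (b + γ) - dot z (b + γ) = -(X z * cos γ + Y z * sin γ) :=
      fun z γ => by
        simp only [X, Y, dot, cos_add, sin_add, cos_pi_div_two, sin_pi_div_two]; ring
    have su : ∀ z γ, dot (bdry h b) (b - γ) - dot z (b - γ) = -(X z * cos γ - Y z * sin γ) :=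
      fun z γ => by rw [sub_eq_add_neg b, ad, cos_neg, sin_neg]; ring
    have t : ∀ α, K h α b = Arc.supp C α → (∃ z ∈ C, dot (bdry h b) α - dot z α = 0) ∧
        ∀ z ∈ C, 0 ≤ dot (bdry h b) α - dot z α := fun α e => by
      obtain ⟨⟨z, a1, a2⟩, a3⟩ := sp α
      rw [bd, e]
      exact ⟨⟨z, a1, by rw [a2, sub_self]⟩, fun z hz => sub_nonneg.2 (a3 z hz)⟩
    have t1 := t _ e
    obtain ⟨⟨z, z1, z2⟩, r⟩ := ca b δ' ⟨by simpa only [cross] using t1.1,
      Or.inl (by simpa only [cross] using t1.2)⟩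
    simp only [cross] at z2 r
    rcases r with r | r
    · refine le_antisymm (by linarith [(sp (b + δ')).2 z z1, bd (b + δ') b]) ?_
      obtain ⟨w, w1, w2⟩ := (sp (b + δ')).1
      linarith [r w w1, bd (b + δ') b]
    exfalso
    have cG : Continuous fun γ => K h (b + γ) b - Arc.supp C (b + γ) :=
      ((Sm.continuous_K (adm H).an).comp
        ((continuous_const.add continuous_id).prodMk continuous_const)).sub
        (ck.comp (continuous_const.add continuous_id))
    obtain ⟨γ, g1, g2⟩ := intermediate_value_Ioo' hp.le cG.continuousOn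
      (show (0 : ℝ) ∈ Ioo _ _ from ⟨by
        have a := k2 (b + π)
        have := H.2.1 b
        rw [add_assoc, ← two_mul, this] at a
        simp only [K, sub_add_cancel_left, cos_neg, sin_neg, cos_pi, sin_pi]
        linarith, by simpa [K_self] using k1 b⟩)
    have t2 := t _ (sub_eq_zero.1 g2)
    obtain ⟨⟨u, u1, u2⟩, -⟩ := ca b (-γ) ⟨by simpa only [cross, sub_neg_eq_add] using t2.1,
      Or.inl (by simpa only [cross, sub_neg_eq_add] using t2.2)⟩
    rw [cross, ← sub_eq_add_neg, su] at u2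
    simp only [su, ad, neg_eq_zero, neg_nonneg, neg_nonpos] at t1 t2 z2 r u2
    refine orient (X := X) (Y := Y) (fun z hz => ?_) (fun k => ?_)
      (sin_pos_of_pos_of_lt_pi m.1 m.2) (sin_pos_of_pos_of_lt_pi g1.1 g1.2) t1.1 t1.2 ⟨z, z1, z2⟩
      r t2.1 t2.2 ⟨u, u1, u2⟩
    · simp only [X, bd, K_self]
      linarith [ins z hz b]
    · obtain ⟨w, hw⟩ := ne
      obtain ⟨ρ, ρ0, hρ⟩ := Metric.mem_nhds_iff.1 (mem_interior_iff_mem_nhds.1 hw)
      have a := k w (interior_subset hw)
      have a' := k (w + (ρ / 2 : ℝ) * Complex.exp ((b + π / 2 : ℝ) * Complex.I)) (hρ (by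
        rw [Metric.mem_ball, dist_self_add_left, norm_mul, Complex.norm_exp_ofReal_mul_I,
          Complex.norm_real, Real.norm_of_nonneg (by positivity)]
        linarith))
      simp only [Y, dot, Complex.add_re, Complex.add_im, Complex.re_ofReal_mul,
        Complex.im_ofReal_mul, Complex.exp_ofReal_mul_I_re, Complex.exp_ofReal_mul_I_im] at a a'
      nlinarith [cos_sq_add_sin_sq (b + π / 2)]
  obtain ⟨f, G, hf⟩ := lifted H (γ := fun t => ⟨2 * π * t - d (2 * π * t), d (2 * π * t)⟩) (k := 1)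
    one_pos (cmk.comp (by fun_prop : Continuous fun t => (2 * π * t - d (2 * π * t), d (2 * π * t))))
    (fun t => Complex.ext (by simp [mul_add, pd]; ring) (by simp [mul_add, pd]))
    (fun s t m e => by
      have a := congrArg Complex.re e
      have b := congrArg Complex.im e
      simp only [Complex.add_re, Complex.add_im, Complex.ofReal_re, Complex.ofReal_im] at a b
      exact ⟨m, mul_left_cancel₀ (by positivity : 2 * π ≠ 0) (by linarith)⟩)
    (fun t => by
      obtain ⟨u, u1, u2⟩ := ex 1 (Or.inl rfl) (2 * π * t)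
      have a := refl (2 * π * t + u) u u1 (by simpa [kk] using u2)
      have b := un (2 * π * t + u + u) u u1 (by simpa [kk] using a)
      refine ⟨(2 * π * t + u + u) / (2 * π), 0, ?_⟩
      simp only [mul_div_cancel₀ _ (by positivity : 2 * π ≠ 0), b, Int.cast_zero, zero_mul,
        add_zero, add_sub_cancel_right]
      refine stepK H (d1 _).1 (d1 _).2 u1.1 u1.2 (by ring) ?_
      have c := d2 (2 * π * t)
      simp only [kk, neg_mul, one_mul, ← sub_eq_add_neg] at c u2
      rw [sub_add_cancel, c, u2])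
  refine ⟨f, G, fun φ => ⟨φ - d φ, ⟨by linarith [(d1 φ).2], by linarith [(d1 φ).1]⟩, ?_, ?_⟩⟩
  · simpa [kk, sub_eq_add_neg] using d2 φ
  · simpa [mul_div_cancel₀ _ (by positivity : 2 * π ≠ 0)] using hf (φ / (2 * π))

end Vale.Agent.N097
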