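import Vale.Agent.N097.Aub

/-! # N097 : no conjugate points near the boundary gives the rational invariant curves -/

set_option linter.all false

namespace Vale.Agent.N097

open Real Set Filter Topology Vale.Agent.P097 Vale.Agent.P097B

variable {h : ℝ → ℝ} {N P : ℕ} {x y : ℤ → ℝ}

theorem GMax.uniq (H : SmoothTable h) (P0 : 0 < P) (PN : P < N) (M : GMax h N P x)
    (M' : GMax h N P y) (h0 : x 0 = y 0) (j : ℤ) : x j = y j := by
  have key : ∀ {x y : ℤ → ℝ}, GMax h N P x → GMax h N P y → x 0 = y 0 → (∀ j, x j ≤ y j) →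
      x 1 = y 1 := by
    intro x y M M' e l
    obtain ⟨δ, S⟩ := (M.mov H (-1) 0).at.seg H P0 PN
    obtain ⟨γ, S'⟩ := (M'.mov H (-1) 0).at.seg H P0 PN
    have a0 := S 0 (by omega)
    have a1 := S 1 (by omega)
    have b0 := S' 0 (by omega)
    have b1 := S' 1 (by omega)
    norm_num at a0 a1 b0 b1
    rw [e] at a0 a1
    rcases lt_trichotomy (δ 1) (γ 1) with c | c | c
    · exact absurd (step_tw' H a0 b0 c) (not_lt.2 (l _))
    · rw [c] at a1
      exact (step_uniq H a1 b1).1
    · exact absurd (step_tw H b1 a1 c) (not_lt.2 (l _))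
  rcases M.ord H P0 PN M' with l | l
  · exact M.det H P0 PN M' h0 (key M M' h0 l) j
  · exact M.det H P0 PN M' h0 (key M' M h0.symm l).symm j

/-- every boundary point is a vertex of a polygon of greatest perimeter -/
def Full (h : ℝ → ℝ) (N P : ℕ) : Prop := ∀ s, ∃ x, GMax h N P x ∧ x 0 = s

theorem Full.leaf (H : SmoothTable h) (P0 : 0 < P) (PN : P < N) (F : Full h N P) :
    ∃ f, TOP.PQLeaf h f P N := by
  choose X M e using F
  choose δ S using fun s => (M s).at.seg H P0 PN
  have mv : ∀ s (a m j : ℤ), X (X s a + m * (2 * π)) j = X s (j + a) + m * (2 * π) :=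
    fun s a m j => (M _).uniq H P0 PN ((M s).mov H a m) (by rw [e, zero_add]) j
  have mv1 : ∀ s (a j : ℤ), X (X s a) j = X s (j + a) := fun s a j => by simpa using mv s a 0 j
  have S0 : ∀ s, Step h s (δ s 0) (X s 1) (δ s 1) := fun s => by simpa [e] using S s 0 (by omega)
  have S1 : ∀ s, Step h s (δ s 0) (X s 1) (δ (X s 1) 0) := fun s => by
    have a := S0 (X s 1)
    have b := S s 1 (by omega)
    rw [mv1] at a
    simp only [Nat.cast_add, Nat.cast_one] at b
    rw [(step_ang H a b).1]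
    exact S0 s
  have mo : Monotone fun s => X s 1 := fun s t hst => by
    rcases (M s).ord H P0 PN (M t) with l | l
    · exact l 1
    · have : s = t := le_antisymm hst (by simpa [e] using l 0)
      rw [this]
  have su : Function.Surjective fun s => X s 1 := fun u => ⟨X u (-1), by simp [mv1, e]⟩
  have cF := mo.continuous_of_surjective su
  have cf : Continuous fun s => δ s 0 := by
    refine cont_root (G := fun q => (HH h 1 (mk q)).re - X q.1 1) (a := 0) (b := π) ?_ ?_ ?_
    · exact (Complex.continuous_re.comp_continuousOn ((HH_cont H (Or.inl rfl)).comp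
        cmk.continuousOn fun q hq => hq.2)).sub (cF.comp continuous_fst).continuousOn
    · intro s a ha b hb c
      have a1 := step_fwd H (z := mk (s, a)) ha
      have b1 := step_fwd H (z := mk (s, b)) hb
      rw [sub_left_inj.1 c] at a1
      exact (step_ang H a1 b1).1
    · intro s
      refine ⟨⟨(S0 s).1, (S0 s).2.1⟩, ?_⟩
      simp only [P097B.mk, HH_step H (S0 s), sub_self]
  refine ⟨fun s => δ s 0, ⟨cf, fun s => ?_, fun s => ⟨(S0 s).1, (S0 s).2.1⟩,
    fun s => ⟨_, S1 s⟩⟩, fun z hz => ?_⟩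
  · have a := S0 (s + 2 * π)
    have b := step_shift H (S0 s) 1
    have c := mv s 0 1 1
    simp only [e, Int.cast_one, one_mul, add_zero] at b c
    rw [c] at a
    exact (step_ang H a b).1
  · have : ∀ j : ℕ, z j = X (z 0) j := fun j => by
      induction j with
      | zero => simp [e]
      | succ k ih =>
        rw [(step_uniq H (hz k) (S0 _)).1, ih, mv1]
        push_cast
        rw [add_comm]
    have c := (M (z 0)).1.1 0
    rw [this N, ← zero_add (N : ℤ), c, e]
    ring

theorem dini_le {A d : ℝ → ℝ} (cA : Continuous A) (cd : Continuous d)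
    (hl : ∀ s, ∃ u : ℝ → ℝ, HasDerivAt u (d s) s ∧ u s = A s ∧ ∀ᶠ t in 𝓝 s, u t ≤ A t) {s₀ : ℝ}
    (hm : ∀ s, A s₀ ≤ A s) : d s₀ ≤ 0 := by
  by_contra c
  push Not at c
  obtain ⟨r, r0, hr⟩ := Metric.eventually_nhds_iff.1
    (cd.continuousAt.eventually (lt_mem_nhds (half_lt_self c)))
  have := image_le_of_liminf_slope_right_le_deriv_boundary (f := fun t => -A t)
    (a := s₀ - r / 2) (b := s₀) cA.neg.continuousOn
    (B := fun t => -A (s₀ - r / 2) - d s₀ / 2 * (t - (s₀ - r / 2))) (B' := fun _ => -(d s₀ / 2))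
    (by simp) (by fun_prop)
    (fun x _ => by
      simpa using ((((hasDerivAt_id x).sub_const (s₀ - r / 2)).const_mul (d s₀ / 2)).const_sub
        (-A (s₀ - r / 2))).hasDerivWithinAt) ?_ (right_mem_Icc.2 (by linarith))
  · have k := hm (s₀ - r / 2)
    simp only [sub_sub_cancel] at this
    nlinarith
  · intro x hx ρ hρ
    apply Eventually.frequently
    obtain ⟨u, du, e, l⟩ := hl x
    have k : d s₀ / 2 < d x := hr (by
      rw [Real.dist_eq, abs_lt]; constructor <;> linarith [hx.1, hx.2])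
    have h2 := (hasDerivAt_iff_tendsto_slope.1 du.neg).eventually
      (gt_mem_nhds (show -d x < ρ by linarith))
    have h3 := h2.filter_mono (nhdsWithin_mono x (fun z hz => (ne_of_gt hz : z ≠ x)) :
      𝓝[>] x ≤ 𝓝[≠] x)
    filter_upwards [h3, self_mem_nhdsWithin, l.filter_mono nhdsWithin_le_nhds] with z z1 z2 z3
    refine lt_of_le_of_lt ?_ z1
    rw [slope_def_field, slope_def_field]
    refine div_le_div_of_nonneg_right ?_ (sub_pos.2 z2).le
    simp only [Pi.neg_apply, e]
    linarith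

theorem dini {A d : ℝ → ℝ} (cA : Continuous A) (cd : Continuous d)
    (hl : ∀ s, ∃ u : ℝ → ℝ, HasDerivAt u (d s) s ∧ u s = A s ∧ ∀ᶠ t in 𝓝 s, u t ≤ A t) {s₀ : ℝ}
    (hm : ∀ s, A s₀ ≤ A s) : d s₀ = 0 := by
  refine le_antisymm (dini_le cA cd hl hm) ?_
  have := dini_le (A := fun t => A (-t)) (d := fun t => -d (-t)) (cA.comp continuous_neg)
    (cd.comp continuous_neg).neg (fun s => by
      obtain ⟨u, a, b, c⟩ := hl (-s)
      refine ⟨fun t => u (-t), ?_, b, (continuous_neg.tendsto s).eventually c⟩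
      exact (a.comp s (hasDerivAt_neg s)).congr_deriv (by simp)) (s₀ := -s₀) (fun s => by simpa using hm (-s))
  simpa using this

/-- two orbits which leave a point at small angles do not meet again -/
def Disc (h : ℝ → ℝ) (η : ℝ) : Prop :=
  ∀ (n : ℕ) (x δ y γ : ℕ → ℝ), 0 < n → Seg h n x δ → Seg h n y γ → x 0 = y 0 → δ 0 < η →
    γ 0 < η → x n = y n → δ 0 = γ 0

theorem Seg.rep (H : SmoothTable h) (C : Cfg N P x) (N0 : 0 < N) {δ : ℕ → ℝ}
    (S : Seg h N (fun j => x j) δ) (e : δ N = δ 0) (m : ℕ) :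
    Seg h m (fun j => x j) fun j => δ (j % N) := by
  intro j _
  have r := Nat.mod_lt j N0
  have a := step_shift H (S _ r) ((j / N : ℕ) * P)
  have e0 : ((j % N : ℕ) : ℤ) + (j / N : ℕ) * N = j := by exact_mod_cast Nat.mod_add_div' j N
  have e1 := C.per (j % N : ℕ) (j / N : ℕ)
  have e2 := C.per (j % N + 1 : ℕ) (j / N : ℕ)
  rw [e0] at e1
  rw [show ((j % N + 1 : ℕ) : ℤ) + (j / N : ℕ) * N = (j + 1 : ℕ) by push_cast at e0 ⊢; linarith]
    at e2
  have e3 : δ ((j + 1) % N) = δ (j % N + 1) := by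
    rw [← Nat.mod_add_mod]
    rcases (Nat.succ_le_of_lt r).eq_or_lt with c | c
    · rw [Nat.succ_eq_add_one] at c
      rw [c, Nat.mod_self, e]
    · rw [Nat.mod_eq_of_lt c]
  simp only [e1, e2, e3, Int.cast_mul, Int.cast_natCast, mul_assoc] at a ⊢
  exact a

theorem Disc.full (H : SmoothTable h) {η : ℝ} (η0 : 0 < η) (D : Disc h η) :
    ∃ q : ℕ, 0 < q ∧ ∀ N P, 0 < P → q * P < N → Full h N P := by
  have hp := pi_pos
  set θ := min η π with hθ
  have θ0 : 0 < θ := lt_min η0 hp
  have θ1 : θ ≤ η := min_le_left _ _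
  have θ2 : θ ≤ π := min_le_right _ _
  obtain ⟨q, q0, sm⟩ := small H (half_pos θ0)
  obtain ⟨L, hL⟩ := ell_bd H
  have tr : ∀ N P, 0 < P → q * P < N → ∀ s, ∃ x δ, MaxAt h N P x ∧ x 0 = s ∧
      Seg h N (fun j => x j) δ ∧ δ 0 < θ := by
    intro N P P0 hN s
    have PN : P < N := by nlinarith
    obtain ⟨x, M, e, l⟩ := trap H P0 PN (fun x => sm N P x P0 hN) s
    obtain ⟨δ, S⟩ := M.seg H P0 PN
    obtain ⟨-, -, a, -, b, -⟩ := S 0 (by omega)
    simp only [Nat.cast_zero, zero_add, Nat.cast_one] at a b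
    exact ⟨x, δ, M, e, S, by linarith⟩
  refine ⟨q, q0, fun N P P0 hN => ?_⟩
  have PN : P < N := by nlinarith
  have N0 : 0 < N := by omega
  choose X δ M e S l using tr N P P0 hN
  have d0 : ∀ s, 0 < δ s 0 := fun s => (S s 0 N0).1
  have sg : ∀ s d, d ∈ Ioo 0 θ → Seg h N (fun j => ((HH h 1)^[j] (mk (s, d))).re)
      fun j => ((HH h 1)^[j] (mk (s, d))).im := fun s d hd j _ =>
    it_step H (z := mk (s, d)) ⟨hd.1, hd.2.trans_le θ2⟩ j
  have eq : ∀ s, ∀ j ≤ N, X s j = ((HH h 1)^[j] (mk (s, δ s 0))).re ∧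
      δ s j = ((HH h 1)^[j] (mk (s, δ s 0))).im := fun s =>
    (S s).det H (sg s _ ⟨d0 s, l s⟩) (e s) rfl
  have eN : ∀ s, X s N = s + P * (2 * π) := fun s => by simpa [e] using (M s).1.1 0
  have cg : Continuous fun s => δ s 0 := by
    refine cont_root (G := fun q => ((HH h 1)^[N] (mk q)).re - (q.1 + P * (2 * π))) (a := 0)
      (b := θ) ?_ ?_ ?_
    · exact (Complex.continuous_re.comp_continuousOn ((it_cont H N).comp cmk.continuousOn
        fun q hq => ⟨hq.2.1, hq.2.2.trans_le θ2⟩)).sub (by fun_prop)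
    · intro s a ha b hb c
      exact D N _ _ _ _ N0 (sg s a ha) (sg s b hb) rfl (ha.2.trans_le θ1) (hb.2.trans_le θ1)
        (sub_left_inj.1 c)
    · exact fun s => ⟨⟨d0 s, l s⟩, by rw [← (eq s N le_rfl).1, eN, sub_self]⟩
  have ci : ∀ j, Continuous fun s => (HH h 1)^[j] (mk (s, δ s 0)) := fun j =>
    (it_cont H j).comp_continuous (cmk.comp (continuous_id.prodMk cg))
      fun s => ⟨d0 s, (l s).trans_le θ2⟩
  have cX : ∀ j : ℕ, j ≤ N → Continuous fun s => X s j := fun j hj =>
    (Complex.continuous_re.comp (ci j)).congr fun s => (eq s j hj).1.symm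
  have cA : Continuous fun s => Len h N (X s) := by
    refine continuous_finset_sum _ fun j hj => ?_
    have := Finset.mem_range.1 hj
    exact (((cbdry H).comp (cX (j + 1) this)).sub ((cbdry H).comp (cX j this.le))).norm
  have cr : Continuous (rad h) := (adm H).an.continuous.add (adm H).an.deriv.deriv.continuous
  have cd : Continuous fun s => rad h s * cos (δ s N) + -(rad h s * cos (δ s 0)) :=
    (cr.mul (continuous_cos.comp ((Complex.continuous_im.comp (ci N)).congr
      fun s => (eq s N le_rfl).2.symm))).add (cr.mul (continuous_cos.comp cg)).neg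
  have le : ∀ y, Cfg N P y → Len h N y ≤ Len h N (X (y 0)) := fun y c =>
    (M _).2 y c (e _).symm
  have pe : Function.Periodic (fun s => Len h N (X s)) (2 * π) := fun s => by
    have a := le _ ((M s).1.mov 0 ((1 : ℤ) * (2 * π)))
    have b := le _ ((M (s + 2 * π)).1.mov 0 ((-1 : ℤ) * (2 * π)))
    rw [(M _).1.len_mov H] at a b
    simp only [add_zero, e, Int.cast_one, one_mul, Int.cast_neg, neg_mul,
      add_neg_cancel_right] at a b
    exact le_antisymm b a
  obtain ⟨_, ⟨s₀, rfl⟩, hm⟩ :=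
    (pe.compact_of_continuous (by positivity) cA).exists_isLeast (range_nonempty _)
  have cl := dini cA cd (fun s => by
    obtain ⟨n, rfl⟩ : ∃ n, N = n + 1 := ⟨N - 1, by omega⟩
    have a := step_shift H (S s n (by omega)) (-P)
    have b := S s 0 N0
    have c := (M s).1.1 (0 - 1)
    rw [show (0 : ℤ) - 1 + (n + 1 : ℕ) = n by push_cast; ring] at c
    simp only [c, eN, Int.cast_neg, Int.cast_natCast, neg_mul, add_neg_cancel_right] at a
    simp only [Nat.cast_zero, e, zero_add, Nat.cast_one] at b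
    refine ⟨fun t => Len h (n + 1) (X s) + (ell h (X s (0 - 1)) t + ell h t (X s 1)) -
      (ell h (X s (0 - 1)) s + ell h s (X s 1)),
      (((d_snd H a).add (d_fst H b)).const_add _).sub_const _, by ring, ?_⟩
    filter_upwards [lt_mem_nhds (step_lt a).1, gt_mem_nhds (step_lt a).2,
      gt_mem_nhds (step_lt b).1,
      lt_mem_nhds (show X s 1 - 2 * π < s by linarith [(step_lt b).2])] with t t1 t2 t3 t4
    obtain ⟨C, k⟩ := (M s).1.upd H (by omega) 0 t1.le t2.le (by simpa using t3.le)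
      (by rw [zero_add]; linarith)
    have := le _ C
    rw [show upd (n + 1) (X s) 0 (t - X s 0) 0 = t by simp [upd]] at this
    simp only [zero_add, e] at k this
    linarith) (s₀ := s₀) (fun s => hm (mem_range_self s))
  have r : 0 < rad h s₀ := H.2.2 s₀
  have cl' : δ s₀ N = δ s₀ 0 := by
    obtain ⟨n, rfl⟩ : ∃ n, N = n + 1 := ⟨N - 1, by omega⟩
    have a := S s₀ n (by omega)
    exact injOn_cos ⟨a.2.2.1.le, a.2.2.2.1.le⟩ ⟨(d0 _).le, ((l _).trans_le θ2).le⟩
      (mul_left_cancel₀ r.ne' (by linarith))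
  have top : ∀ y, Cfg N P y → Len h N y ≤ Len h N (X s₀) := fun y C => by
    by_contra c
    push Not at c
    obtain ⟨k, hk⟩ := exists_nat_gt (2 * L / (Len h N y - Len h N (X s₀)))
    rw [div_lt_iff₀ (sub_pos.2 c)] at hk
    have k1 : q * ((k + 1) * P) < (k + 1) * N := by nlinarith
    have k0 : 0 < (k + 1) * P := by positivity
    have k2 : (k + 1) * P < (k + 1) * N := by nlinarith
    obtain ⟨z, γ, Z, z0, Sz, lz⟩ := tr _ _ k0 k1 s₀
    have Sx := (S s₀).rep H (M s₀).1 N0 cl' ((k + 1) * N)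
    have Cx := (M s₀).1.mul (k + 1)
    have a0 : X s₀ (0 : ℕ) = z (0 : ℕ) := (e _).trans z0.symm
    have a1 := D _ _ _ _ _ (by omega) Sx Sz a0 (by simpa using (l s₀).trans_le θ1)
      (lz.trans_le θ1) (by
        have a := Cx.1 0
        have b := Z.1.1 0
        rw [zero_add] at a b
        simp only [a, b, e, z0])
    have a2 : X s₀ = z := funext (Cx.ext Z.1 (by omega) fun j hj => (Sx.det H Sz a0 a1 j hj.le).1)
    have a3 := Z.near H k0 k2 hL (fun x G j => (sm _ _ x k0 k1 G j).trans_le (by linarith))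
      (C.mul (k + 1))
    rw [← a2, C.len_mul H, (M s₀).1.len_mul H] at a3
    push_cast at a3
    nlinarith
  exact fun s => ⟨X s, ⟨(M s).1, fun y C => (top y C).trans (hm (mem_range_self s))⟩, e s⟩

theorem leaves_of_full (H : SmoothTable h) {q : ℕ} (q0 : 0 < q)
    (F : ∀ N P, 0 < P → Nat.Coprime P N → q * P < N → Full h N P) : H407.Leaves h (1 / q) := by
  intro p n p0 n0 c l
  have k : q * p < n := by
    rw [div_lt_div_iff₀ (by positivity) (by positivity), one_mul, mul_comm] at l
    exact_mod_cast l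
  exact (F n p p0 c k).leaf H p0 (by nlinarith)

end Vale.Agent.N097
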