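import Vale.Agent.N097.Cau
import Vale.Agent.N097.Hopf
import Vale.Agent.P097.H402.Equiv

/-! # N097 : from the support function to the table -/

set_option linter.all false

namespace Vale.Agent.N097

open Real Set Filter Topology Vale.Agent.P097 Vale.Agent.P097B
open scoped ComplexConjugate

variable {h ψ σ f : ℝ → ℝ} {Ω : Set ℂ} {L : ℝ} {Γ : ℝ → ℂ}

/-- the normal angle `ψ` and its inverse `σ` -/
structure Dic (L : ℝ) (Γ : ℝ → ℂ) (h ψ σ : ℝ → ℝ) : Prop where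
  H : SmoothTable h
  L0 : 0 < L
  per : Function.Periodic Γ L
  cψ : Continuous ψ
  cσ : Continuous σ
  a1 : ∀ s, σ (ψ s) = s
  a2 : ∀ θ, ψ (σ θ) = θ
  pψ : ∀ s, ψ (s + L) = ψ s + 2 * π
  pσ : ∀ θ, σ (θ + 2 * π) = σ θ + L
  tg : ∀ s, deriv Γ s = Complex.I * Complex.exp (ψ s * Complex.I)
  bd : ∀ θ, bdry h θ = Γ (σ θ)

theorem exists_dic (T : Arc.Table Ω L Γ) : ∃ h ψ σ, Dic L Γ h ψ σ := by
  obtain ⟨h, ψ, σ, H, cψ, cσ, a1, a2, pψ, pσ, tg, bd⟩ := Arc.exists_support T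
  exact ⟨h, ψ, σ, H, T.2.2.2.1, T.2.2.2.2.2.1, cψ, cσ, a1, a2, pψ, pσ, tg, bd⟩

theorem ex_mul (a b : ℝ) : Complex.exp (a * Complex.I) * Complex.exp (b * Complex.I) =
    Complex.exp ((a + b : ℝ) * Complex.I) := by
  rw [← Complex.exp_add]; push_cast; ring_nf

theorem int_per {u : ℝ → ℝ} {p q : ℝ} (hu : ∀ s, u (s + p) = u s + q) (s : ℝ) (n : ℤ) :
    u (s + n * p) = u s + n * q := by
  induction n using Int.induction_on with
  | zero => simp
  | succ k ih => push_cast at ih ⊢; rw [add_mul, one_mul, ← add_assoc, hu, ih]; ring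
  | pred k ih =>
    have := hu (s + (-(k : ℝ) - 1) * p)
    push_cast at ih ⊢
    rw [show s + (-(k : ℝ) - 1) * p + p = s + -(k : ℝ) * p by ring, ih] at this
    linarith

namespace Dic

variable (D : Dic L Γ h ψ σ)
include D

theorem mono : StrictMono ψ := by
  refine (D.cψ.strictMono_of_inj (Function.LeftInverse.injective D.a1)).resolve_right fun a => ?_
  have := a (lt_add_of_pos_right 0 D.L0)
  rw [D.pψ] at this
  linarith [pi_pos]

theorem rg : range (bdry h) = range Γ := by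
  ext z
  constructor
  · rintro ⟨θ, rfl⟩; exact ⟨_, (D.bd θ).symm⟩
  · rintro ⟨s, rfl⟩; exact ⟨ψ s, by rw [D.bd, D.a1]⟩

theorem bounce (s s' : ℝ) (δ δ' : Ioo (0 : ℝ) π) :
    Arc.Bounce L Γ ((s : AddCircle L), δ) ((s' : AddCircle L), δ') ↔
      ∃ n : ℤ, Step h (ψ s) δ (ψ s' + n * (2 * π)) δ' := by
  have pb := Arc.bdry_per D.H
  obtain ⟨δ, d0, d1⟩ := δ
  obtain ⟨δ', e0, e1⟩ := δ'
  constructor
  · rintro ⟨t, t', ℓ, c1, c2, l0, b1, b2⟩
    obtain ⟨m, rfl⟩ := coe_eq.1 c1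
    obtain ⟨m', rfl⟩ := coe_eq.1 c2
    have pd : Function.Periodic (deriv Γ) L := fun x => by
      rw [D.tg, D.tg, D.pψ]
      push_cast
      rw [add_mul, Complex.exp_add, Complex.exp_two_pi_mul_I, mul_one]
    rw [D.per.int_mul m, D.per.int_mul m', pd.int_mul m] at b1
    rw [pd.int_mul m, pd.int_mul m'] at b2
    simp only [D.tg] at b1 b2
    rw [mul_assoc, mul_assoc, ex_mul, ← neg_mul, ← Complex.ofReal_neg, ex_mul] at b2
    obtain ⟨n, hn⟩ := Complex.exp_eq_exp_iff_exists_int.1 (mul_left_cancel₀ Complex.I_ne_zero b2)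
    have k := congrArg Complex.im hn
    simp at k
    refine ⟨n, d0, d1, e0, e1, by simp only; linarith, ℓ, l0, ?_⟩
    rw [pb.int_mul n, D.bd, D.bd, D.a1, D.a1, b1, mul_assoc, ex_mul]
  · rintro ⟨n, -, -, -, -, b3, ℓ, l0, b4⟩
    refine ⟨s, s', ℓ, rfl, rfl, l0, ?_, ?_⟩
    · rw [pb.int_mul n, D.bd, D.bd, D.a1, D.a1] at b4
      rw [D.tg, mul_assoc, ex_mul]
      exact b4
    · rw [D.tg, D.tg, mul_assoc, mul_assoc, ex_mul, ← neg_mul, ← Complex.ofReal_neg, ex_mul]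
      congr 1
      refine Complex.exp_eq_exp_iff_exists_int.2 ⟨n, ?_⟩
      simp only at b3
      rw [show ψ s + δ = ψ s' + -δ' + n * (2 * π) by linarith]
      push_cast
      ring

theorem traj (s : ℕ → ℝ) (δ : ℕ → Ioo (0 : ℝ) π) :
    Traj L Γ s δ ↔ ∀ j, Step h (ψ (s j)) (δ j) (ψ (s (j + 1))) (δ (j + 1)) := by
  refine forall_congr' fun j => ⟨fun ⟨a, b, c⟩ => ?_, fun S => ⟨?_, ?_, ?_⟩⟩
  · obtain ⟨n, S⟩ := (D.bounce _ _ _ _).1 c
    have a1 := D.mono a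
    have b1 := D.mono b
    rw [D.pψ] at b1
    obtain ⟨c1, c2⟩ := step_lt S
    have u : (-1 : ℝ) < n := by nlinarith [pi_pos]
    have v : (n : ℝ) < 1 := by nlinarith [pi_pos]
    have u' : -1 < n := by exact_mod_cast u
    have v' : n < 1 := by exact_mod_cast v
    have : n = 0 := by omega
    simpa [this] using S
  · exact D.mono.lt_iff_lt.1 (step_lt S).1
  · exact D.mono.lt_iff_lt.1 (by rw [D.pψ]; exact (step_lt S).2)
  · exact (D.bounce _ _ _ _).2 ⟨0, by simpa using S⟩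

theorem maps : ∃ (P : C(Arc.Phase L, Phase)) (Q : C(Phase, Arc.Phase L)), (∀ x, Q (P x) = x) ∧
    (∀ x, P (Q x) = x) ∧ (∀ (s : ℝ) δ, P ((s : AddCircle L), δ) = (((ψ s : ℝ) : AddCircle (2 * π)), δ)) ∧
    ∀ x y, Arc.Bounce L Γ x y ↔ Bounce h (P x) (P y) := by
  obtain ⟨F, hF⟩ := Arc.circ D.cψ D.pψ
  obtain ⟨G, hG⟩ := Arc.circ D.cσ D.pσ
  refine ⟨F.prodMap (ContinuousMap.id _), G.prodMap (ContinuousMap.id _), ?_, ?_,
    fun s δ => Prod.ext (hF s) rfl, ?_⟩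
  · rintro ⟨x, δ⟩
    obtain ⟨x, rfl⟩ := QuotientAddGroup.mk_surjective x
    exact Prod.ext (show G (F x) = x by rw [hF, hG, D.a1]) rfl
  · rintro ⟨x, δ⟩
    obtain ⟨x, rfl⟩ := QuotientAddGroup.mk_surjective x
    exact Prod.ext (show F (G x) = x by rw [hG, hF, D.a2]) rfl
  · rintro ⟨x, δ⟩ ⟨y, δ'⟩
    obtain ⟨x, rfl⟩ := QuotientAddGroup.mk_surjective x
    obtain ⟨y, rfl⟩ := QuotientAddGroup.mk_surjective y
    rw [D.bounce]
    constructor
    · rintro ⟨n, S⟩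
      exact ⟨_, _, (hF x).symm, (coe_eq.2 ⟨n, rfl⟩).trans (hF y).symm, S⟩
    · rintro ⟨a, b, a1, b1, S⟩
      obtain ⟨m, rfl⟩ := coe_eq.1 (a1.trans (hF x))
      obtain ⟨m', rfl⟩ := coe_eq.1 (b1.trans (hF y))
      refine ⟨m' - m, ?_⟩
      have := step_shift D.H S (-m)
      push_cast at this ⊢
      rwa [neg_mul, add_neg_cancel_right, add_assoc, ← sub_eq_add_neg, ← sub_mul] at this

theorem rot_graph {c : C(AddCircle (1 : ℝ), Arc.Phase L)} (R : Arc.RotCurve L Γ c) :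
    ∃ f, InvGraph h f ∧ ∀ (s : ℝ) δ, ((s : AddCircle L), δ) ∈ range c ↔ f (ψ s) = δ := by
  obtain ⟨P, Q, qp, pq, hP, key⟩ := D.maps
  obtain ⟨r1, r2, r3⟩ := R
  obtain ⟨k1, k2⟩ := Arc.rot_map P Q qp r1 r2
  obtain ⟨f, G, hf⟩ := RotCurve.graph D.H (c := P.comp c)
    ⟨k1, k2, fun t => (r3 t).imp fun s hs => (key _ _).1 hs⟩
  have on : ∀ (s : ℝ) δ, ((s : AddCircle L), δ) ∈ range c → f (ψ s) = δ := by
    rintro s δ ⟨t, ht⟩
    have := hf t (ψ s) (by rw [ContinuousMap.comp_apply, ht, hP])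
    rwa [ContinuousMap.comp_apply, ht, hP] at this
  refine ⟨f, G, fun s δ => ⟨on s δ, fun e => ?_⟩⟩
  haveI : Fact (0 < L) := ⟨D.L0⟩
  obtain ⟨t, ht⟩ : ∃ t, (c t).1 = s := by
    by_contra k
    push Not at k
    apply r2
    haveI : ContractibleSpace (Ioo (0 : ℝ) π) :=
      (convex_Ioo 0 π).contractibleSpace (nonempty_Ioo.2 pi_pos)
    let c' : C(AddCircle (1 : ℝ), ℝ × Ioo (0 : ℝ) π) :=
      ⟨fun t => (AddCircle.equivIco L s (c t).1, (c t).2),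
        (continuous_iff_continuousAt.2 fun t => continuousAt_subtype_val.comp
          ((AddCircle.continuousAt_equivIco L s (k t)).comp (f := fun t => (c t).1)
            (continuous_fst.comp c.continuous).continuousAt)).prodMk
          (continuous_snd.comp c.continuous)⟩
    let q : C(ℝ × Ioo (0 : ℝ) π, Arc.Phase L) :=
      ⟨fun z => (z.1, z.2), ((AddCircle.continuous_mk' L).comp continuous_fst).prodMk
        continuous_snd⟩
    have e : c = q.comp ((ContinuousMap.id _).comp c') := by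
      ext1 t
      exact Prod.ext AddCircle.coe_equivIco.symm rfl
    rw [e]
    exact ((id_nullhomotopic _).comp_left c').comp_right q
  exact ⟨t, Prod.ext ht (Subtype.ext ((on s (c t).2 ⟨t, Prod.ext ht rfl⟩).symm.trans e))⟩

theorem graph_rot (G : InvGraph h f) : ∃ c, Arc.RotCurve L Γ c ∧
    ∀ (s : ℝ) δ, ((s : AddCircle L), δ) ∈ range c ↔ f (ψ s) = δ := by
  obtain ⟨P, Q, qp, pq, hP, key⟩ := D.maps
  obtain ⟨c, ⟨r1, r2, r3⟩, hc⟩ := rot_of_graph G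
  obtain ⟨k1, k2⟩ := Arc.rot_map Q P pq r1 r2
  have R : Arc.RotCurve L Γ (Q.comp c) := ⟨k1, k2, fun t => (r3 t).imp fun s hs => (key _ _).2 (by
    show Bounce h (P (Q (c t))) (P (Q (c s)))
    rwa [pq, pq])⟩
  obtain ⟨g, -, hg⟩ := D.rot_graph R
  refine ⟨_, R, fun s δ => ?_⟩
  obtain ⟨t, ht⟩ := hc (ψ s)
  rw [hg, (hg s ⟨f (ψ s), G.2.2.1 _⟩).1 ⟨t, by rw [ContinuousMap.comp_apply, ht, ← hP, qp]⟩]

theorem filled {η : ℝ} (η0 : 0 < η) (C : Collar h η) : Arc.Filled L Γ := by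
  refine ⟨η, η0, ?_⟩
  rintro ⟨x, δ⟩ hx
  obtain ⟨s, rfl⟩ := QuotientAddGroup.mk_surjective x
  obtain ⟨f, G, e⟩ := C (ψ s) δ δ.2.1 hx
  obtain ⟨c, R, hc⟩ := D.graph_rot G
  exact ⟨c, R, (hc s δ).2 e⟩

theorem den (C : DenseCurves L Γ) : ∃ η, 0 < η ∧ Den h η := by
  obtain ⟨η, η0, C⟩ := C
  refine ⟨η, η0, fun θ δ d0 d1 d2 r r0 => ?_⟩
  have op : IsOpen (((↑) '' {s : ℝ | |ψ s - θ| < r} : Set (AddCircle L)) ×ˢ
      {d : Ioo (0 : ℝ) π | |(d : ℝ) - δ| < r}) :=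
    (QuotientAddGroup.isOpenMap_coe _
      (isOpen_lt (D.cψ.sub continuous_const).abs continuous_const)).prod
      (isOpen_lt (continuous_subtype_val.sub continuous_const).abs continuous_const)
  obtain ⟨⟨_, d⟩, ⟨⟨s, a, rfl⟩, b⟩, c, R, m⟩ := mem_closure_iff.1
    (C (a := ((σ θ : ℝ), ⟨δ, d0, d2⟩)) d1) _ op
    ⟨⟨σ θ, by simpa [D.a2] using r0, rfl⟩, by simpa using r0⟩
  obtain ⟨f, G, hf⟩ := D.rot_graph R
  exact ⟨f, G, ψ s, a, by rwa [(hf s d).1 m]⟩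

theorem nested (T : Arc.Table Ω L Γ) (C : NestedCaustics Ω Γ) : ∃ η, 0 < η ∧ Den h η := by
  obtain ⟨ε, 𝒞, ε0, h1, ch, cov⟩ := C
  refine den_of_nested D.H T.1 T.2.1 (D.rg.trans T.2.2.2.2.2.2.2.1) ε0 (fun C hC => ?_) ch cov
  obtain ⟨a, b, c, d, e⟩ := h1 C hC
  refine ⟨a, b, c, d, fun θ δ => ?_⟩
  have := e (σ θ) δ
  rwa [← D.bd, D.tg, D.a2, mul_assoc, mul_assoc, ex_mul, ← neg_mul, ← Complex.ofReal_neg, ex_mul,
    ← sub_eq_add_neg] at this

theorem rational : RationalCurves L Γ ↔ ∃ η, 0 < η ∧ H407.Leaves h η := by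
  refine exists_congr fun η => and_congr_right fun _ => forall_congr' fun p =>
    forall_congr' fun n => forall_congr' fun _ => forall_congr' fun _ => forall_congr' fun _ =>
    forall_congr' fun _ => ⟨?_, ?_⟩
  · rintro ⟨c, R, k⟩
    obtain ⟨f, G, hf⟩ := D.rot_graph R
    refine ⟨f, G, fun x hx => ?_⟩
    have := (k (fun j => σ (x j)) (fun j => ⟨f (x j), G.2.2.1 _⟩)
      ((D.traj _ _).2 fun j => by simpa only [D.a2] using hx j) ((hf _ _).2 (by rw [D.a2]))).1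
    have e := congrArg ψ this
    have e2 := int_per D.pψ (σ (x 0)) p
    simp only [Int.cast_natCast, D.a2] at e e2
    rw [e, e2, mul_comm]
  · rintro ⟨f, G, k⟩
    obtain ⟨c, R, hc⟩ := D.graph_rot G
    refine ⟨c, R, fun s δ T m => ?_⟩
    rw [D.traj] at T
    have on : ∀ j, f (ψ (s j)) = δ j := fun j => by
      induction j with
      | zero => exact (hc _ _).1 m
      | succ i ih =>
        obtain ⟨y, S⟩ := G.2.2.2 (ψ (s i))
        rw [ih] at S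
        obtain ⟨a, b⟩ := step_uniq D.H S (T i)
        rw [← a, b]
    have e := k (fun j => ψ (s j)) fun j => by simpa only [on] using T j
    have e2 := int_per D.pψ (s 0) p
    simp only [Int.cast_natCast] at e e2
    refine ⟨D.mono.injective (by rw [e, e2, mul_comm]), Subtype.ext ?_⟩
    have pf : Function.Periodic f (2 * π) := G.2.1
    rw [← on, ← on, e, mul_comm, pf.nat_mul p]

theorem disc (C : Disconjugate L Γ) : ∃ η, 0 < η ∧ Disc h η := by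
  obtain ⟨η, η0, C⟩ := C
  refine ⟨η, η0, fun n x δ y γ n0 S S' e a b e' => ?_⟩
  have ext : ∀ x δ, Seg h n x δ → ∃ s d, Traj L Γ s d ∧ ∀ j ≤ n, s j = σ (x j) ∧ (d j : ℝ) = δ j :=
    fun x δ S => by
      have m : P097B.mk (x 0, δ 0) ∈ XX := ⟨(S 0 n0).1, (S 0 n0).2.1⟩
      refine ⟨fun j => σ ((HH h 1)^[j] (P097B.mk (x 0, δ 0))).re, fun j => ⟨_, it_x D.H m j⟩,
        (D.traj _ _).2 fun j => by simpa only [D.a2] using it_step D.H m j, fun j hj => ?_⟩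
      obtain ⟨u, v⟩ := S.det D.H (fun i _ => it_step D.H m i) rfl rfl j hj
      exact ⟨by rw [u], v.symm⟩
  obtain ⟨s, d, T, k⟩ := ext x δ S
  obtain ⟨s', d', T', k'⟩ := ext y γ S'
  have z := Nat.zero_le n
  by_contra c
  refine C s d s' d' T T' (by rw [(k 0 z).1, (k' 0 z).1, e]) ((k 0 z).2 ▸ a) ((k' 0 z).2 ▸ b)
    (fun u => c ?_) n n0 (by rw [(k n le_rfl).1, (k' n le_rfl).1, e'])
  rw [← (k 0 z).2, ← (k' 0 z).2, u]

end Dic

theorem tube (u : ℝ × ℝ → ℝ) (r p t : ℝ) (r0 : 0 < r) (p0 : 0 < p) (t0 : 0 < t)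
    (cu : ContinuousOn u {q | |q.2| < r}) (u0 : ∀ x, u (x, 0) = 0)
    (pu : ∀ x w, |w| < r → u (x + p, w) = u (x, w)) :
    ∃ e, 0 < e ∧ e ≤ r ∧ ∀ q : ℝ × ℝ, |q.2| < e → u q < t := by
  have := (isCompact_Icc (a := 0) (b := p)).eventually_forall_of_forall_eventually
    (x₀ := (0 : ℝ)) (P := fun w x => u (x, w) < t) fun x _ => by
      have c : ContinuousAt (fun z : ℝ × ℝ => u (z.2, z.1)) (0, x) :=
        (cu.continuousAt ((isOpen_lt continuous_snd.abs continuous_const).mem_nhds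
          (by simpa using r0))).comp (f := fun z : ℝ × ℝ => (z.2, z.1)) (by fun_prop)
      exact c.eventually (gt_mem_nhds (by simpa [u0] using t0))
  obtain ⟨e, e0, he⟩ := Metric.eventually_nhds_iff.1 this
  refine ⟨min e r, lt_min e0 r0, min_le_right _ _, fun ⟨x, w⟩ hw => ?_⟩
  rw [lt_min_iff] at hw
  have pe : Function.Periodic (fun x => u (x, w)) p := fun x => pu x w hw.2
  obtain ⟨y, y1, y2⟩ := pe.exists_mem_Ico₀ p0 x
  exact y2.trans_lt (he (by simpa using hw.1) y (Ico_subset_Icc_self y1))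

theorem chart (I : H402.IntBd h) :
    ∃ (ε η : ℝ) (Φ J : ℝ × ℝ → ℝ × ℝ) (f : ℝ → ℝ → ℝ) (V : Set (ℝ × ℝ)), 0 < η ∧
      IsOpen V ∧ (∀ p, p ∈ V ↔ ∃ w ∈ Ioo 0 ε, f w p.1 = p.2) ∧
      (∀ p : ℝ × ℝ, 0 < p.2 → p.2 < η → p ∈ V) ∧ ContinuousOn Φ {q | q.2 ∈ Ioo 0 ε} ∧
      ContinuousOn J V ∧ (∀ q : ℝ × ℝ, q.2 ∈ Ioo 0 ε → Φ q ∈ V ∧ J (Φ q) = q) ∧
      (∀ p ∈ V, Φ (J p) = p) ∧
      ∀ w ∈ Ioo 0 ε, InvGraph h (f w) ∧ ∀ x, (J (x, f w x)).2 = w := by
  obtain ⟨ε, η, Φ, J, ε0, η0, aΦ, aJ, h1, h2, h3, h4, h5, h6, -⟩ := I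
  have hp := pi_pos
  choose! f G _ hf using h6
  have cΦ := aΦ.continuousOn
  have cJ := aJ.continuousOn
  have z0 : ∀ x, (Φ (x, 0)).2 = 0 := fun x => by
    have := congrArg Prod.snd (h4 x 0 (by simpa using ε0))
    rw [neg_zero] at this
    linarith
  have sg : ∀ q : ℝ × ℝ, |q.2| < ε → (0 < (Φ q).2 → 0 < q.2) ∧ ((Φ q).2 = 0 → q.2 = 0) := by
    rintro ⟨x, w⟩ hw
    have hw' := abs_lt.1 hw
    rcases lt_trichotomy w 0 with c | rfl | c
    · have a := (h5 x (-w) (by linarith) (by linarith [hw'.1])).1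
      have b := congrArg Prod.snd (h4 x w hw)
      simp only at b
      exact ⟨fun k => by linarith, fun k => by linarith⟩
    · exact ⟨fun k => by linarith [z0 x], fun _ => rfl⟩
    · exact ⟨fun _ => c, fun k => by linarith [(h5 x w c hw'.2).1]⟩
  obtain ⟨e, e0, e1, e2⟩ := tube (fun q => (Φ q).2) ε 1 η ε0 one_pos η0 cΦ.snd z0
    fun x w hw => by rw [h3 x w hw]
  obtain ⟨η', g0, g1, g2⟩ := tube (fun p => (J p).2) η (2 * π) e η0 (by positivity) e0 cJ.snd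
    (fun x => by
      obtain ⟨a, b⟩ := h1 (x, 0) (by simpa using η0)
      exact (sg _ a).2 (by rw [b]))
    fun x d hd => by
      obtain ⟨a, b⟩ := h1 (x, d) hd
      have c := h3 (J (x, d)).1 (J (x, d)).2 a
      rw [b] at c
      simp only at c
      rw [← c, h2 ((J (x, d)).1 + 1, (J (x, d)).2) a]
  have ab : ∀ w ∈ Ioo 0 e, |w| < e ∧ |w| < ε := fun w hw => by
    rw [abs_of_pos hw.1]; exact ⟨hw.2, hw.2.trans_le e1⟩
  have su : ∀ w ∈ Ioo 0 e, ∀ y, ∃ x, Φ (x, w) = (y, f w y) := fun w hw y => by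
    have c : Continuous fun x => (Φ (x, w)).1 :=
      (cΦ.comp_continuous (by fun_prop) fun x => (ab w hw).2).fst
    have pe : ∀ x, (Φ (x + 1, w)).1 = (Φ (x, w)).1 + 2 * π := fun x => by rw [h3 x w (ab w hw).2]
    obtain ⟨x, rfl⟩ := c.surjective (per_top c pe (by positivity)) (per_bot c pe (by positivity)) y
    exact ⟨x, Prod.ext rfl (hf w hw.1 (hw.2.trans_le e1) x).symm⟩
  have inV : ∀ q : ℝ × ℝ, q.2 ∈ Ioo 0 e → (0 < (Φ q).2 ∧ (Φ q).2 < η) ∧ (J (Φ q)).2 < e :=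
    fun q hq => ⟨⟨(h5 q.1 q.2 hq.1 (hq.2.trans_le e1)).1, e2 q (ab _ hq).1⟩, by
      rw [h2 q (ab _ hq).2]; exact hq.2⟩
  have st : ∀ p : ℝ × ℝ, 0 < p.2 ∧ p.2 < η → |p.2| < η := fun p hp => by
    rw [abs_of_pos hp.1]; exact hp.2
  refine ⟨e, η', Φ, J, f, {p | 0 < p.2 ∧ p.2 < η} ∩ (fun p => (J p).2) ⁻¹' Iio e, g0,
    (cJ.snd.mono st).isOpen_inter_preimage ((isOpen_lt continuous_const continuous_snd).inter
      (isOpen_lt continuous_snd continuous_const)) isOpen_Iio, fun p => ⟨fun ⟨a, b⟩ => ?_, ?_⟩,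
    fun p a b => ⟨⟨a, b.trans_le g1⟩, g2 p (by rwa [abs_of_pos a])⟩,
    cΦ.mono fun q hq => (ab _ hq).2, cJ.mono fun p hp => st p hp.1,
    fun q hq => ⟨inV q hq, h2 q (ab _ hq).2⟩, fun p hp => (h1 p (st p hp.1)).2,
    fun w hw => ⟨G w hw.1 (hw.2.trans_le e1), fun y => ?_⟩⟩
  · obtain ⟨c, d⟩ := h1 p (st p a)
    have k := (sg _ c).1 (by rw [d]; exact a.1)
    have := hf _ k (lt_of_lt_of_le b e1) (J p).1
    rw [d] at this
    exact ⟨_, ⟨k, b⟩, this⟩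
  · rintro ⟨w, hw, k⟩
    obtain ⟨x, hx⟩ := su w hw p.1
    have := inV (x, w) hw
    rwa [hx, k] at this
  · obtain ⟨x, hx⟩ := su w hw y
    rw [← hx, h2 _ (ab w hw).2]

theorem Dic.disconj (D : Dic L Γ h ψ σ) (I : H402.IntBd h) : Disconjugate L Γ := by
  obtain ⟨ε, η, Φ, J, f, V, η0, -, hV, col, -, -, -, -, G⟩ := chart I
  have key : ∀ s δ s' δ', Traj L Γ s δ → Traj L Γ s' δ' → s 0 = s' 0 → (δ 0 : ℝ) < δ' 0 →
      (δ' 0 : ℝ) < η → ∀ n, s (n + 1) < s' (n + 1) := by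
    intro s δ s' δ' T T' e a b
    rw [D.traj] at T T'
    obtain ⟨w, hw, k⟩ := (hV _).1 (col (ψ (s 0), δ 0) (δ 0).2.1 (a.trans b))
    obtain ⟨w', hw', k'⟩ := (hV _).1 (col (ψ (s' 0), δ' 0) (δ' 0).2.1 b)
    simp only at k k'
    have c := (G w hw).1.1
    have c' := (G w' hw').1.1
    have lt : ∀ x, f w x < f w' x := fun x => by
      by_contra u
      obtain ⟨y, hy⟩ := intermediate_value_univ₂ c c' (a := ψ (s 0)) (b := x)
        (by rw [k, e, k']; exact a.le) (not_lt.1 u)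
      have : w = w' := by rw [← (G w hw).2 y, hy, (G w' hw').2 y]
      rw [this, e, k'] at k
      exact a.ne k.symm
    have on : ∀ (s : ℕ → ℝ) (δ : ℕ → Ioo (0 : ℝ) π) (g : ℝ → ℝ), InvGraph h g →
        (∀ j, Step h (ψ (s j)) (δ j) (ψ (s (j + 1))) (δ (j + 1))) → g (ψ (s 0)) = δ 0 →
        ∀ j, g (ψ (s j)) = δ j := fun s δ g G T m j => by
      induction j with
      | zero => exact m
      | succ i ih =>
        obtain ⟨y, S⟩ := G.2.2.2 (ψ (s i))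
        rw [ih] at S
        obtain ⟨a, b⟩ := step_uniq D.H S (T i)
        rw [← a, b]
    have o := on s δ _ (G w hw).1 T k
    have o' := on s' δ' _ (G w' hw').1 T' k'
    obtain ⟨F, S, -, -, m, -⟩ := Sm.invG_exists_F' (adm D.H) (G w' hw').1
    have st : ∀ j, ψ (s j) ≤ ψ (s' j) → ψ (s (j + 1)) < ψ (s' (j + 1)) := fun j l => by
      have a1 := step_tw D.H (T j) (S (ψ (s j))) (o j ▸ lt _)
      have a2 := S (ψ (s' j))
      rw [o'] at a2
      rw [← (step_uniq D.H a2 (T' j)).1]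
      exact a1.trans_le (m.monotone l)
    intro n
    refine D.mono.lt_iff_lt.1 ?_
    induction n with
    | zero => exact st 0 (by rw [e])
    | succ i ih => exact st _ ih.le
  refine ⟨η, η0, fun s δ s' δ' T T' e a b c n n0 => ?_⟩
  obtain ⟨n, rfl⟩ : ∃ m, n = m + 1 := ⟨n - 1, by omega⟩
  rcases lt_or_gt_of_ne (fun k => c (Subtype.ext k) : (δ 0 : ℝ) ≠ δ' 0) with l | l
  · exact (key s δ s' δ' T T' e l b n).ne
  · exact (key s' δ' s δ T' T e.symm l a n).ne'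

theorem Dic.foliated (D : Dic L Γ h ψ σ) (I : H402.IntBd h) : Foliated L Γ := by
  obtain ⟨ε, η, Φ, J, f, V, η0, oV, hV, col, cΦ, cJ, i1, i2, G⟩ := chart I
  haveI : Nonempty C(AddCircle (1 : ℝ), Arc.Phase L) :=
    ⟨ContinuousMap.const _ (0, ⟨_, half_pos pi_pos, half_lt_self pi_pos⟩)⟩
  choose! c R hc using fun w (hw : w ∈ Ioo 0 ε) => D.graph_rot (G w hw).1
  haveI : Fact (0 < L) := ⟨D.L0⟩
  set U : Set (Arc.Phase L) := ⋃₀ ((fun w => range (c w)) '' Ioo 0 ε) with hU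
  have mU : ∀ (s : ℝ) δ, ((s : AddCircle L), δ) ∈ U ↔ (ψ s, (δ : ℝ)) ∈ V := fun s δ => by
    rw [hV, hU, sUnion_image, mem_iUnion₂]
    exact ⟨fun ⟨w, a, b⟩ => ⟨w, a, (hc w a s δ).1 b⟩, fun ⟨w, a, b⟩ => ⟨w, a, (hc w a s δ).2 b⟩⟩
  have jV : ∀ p ∈ V, (J p).2 ∈ Ioo 0 ε ∧ f (J p).2 p.1 = p.2 := fun p hp => by
    obtain ⟨w, a, b⟩ := (hV p).1 hp
    have := (G w a).2 p.1
    rw [b] at this
    exact this ▸ ⟨a, b⟩
  have cq : Continuous fun s : ℝ => (s : AddCircle L) := AddCircle.continuous_mk' L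
  have oU : IsOpen U := by
    have q := (QuotientAddGroup.isOpenQuotientMap_mk (N := AddSubgroup.zmultiples L)).prodMap
      (IsOpenQuotientMap.id (X := Ioo (0 : ℝ) π))
    rw [← q.isQuotientMap.isOpen_preimage]
    convert oV.preimage (f := fun z : ℝ × Ioo (0 : ℝ) π => (ψ z.1, (z.2 : ℝ)))
      ((D.cψ.comp continuous_fst).prodMk (continuous_subtype_val.comp continuous_snd)) using 1
    exact Set.ext fun z => mU z.1 z.2
  refine ⟨η, U, (fun w => range (c w)) '' Ioo 0 ε, η0, oU, ?_, ?_, ?_, rfl, ?_, ?_⟩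
  · rintro ⟨x, δ⟩ hx
    obtain ⟨s, rfl⟩ := QuotientAddGroup.mk_surjective x
    exact (mU s δ).2 (col _ δ.2.1 hx)
  · rintro ⟨x, δ⟩ ⟨y, δ'⟩ B
    obtain ⟨s, rfl⟩ := QuotientAddGroup.mk_surjective x
    obtain ⟨s', rfl⟩ := QuotientAddGroup.mk_surjective y
    obtain ⟨n, S⟩ := (D.bounce _ _ _ _).1 B
    rw [mU, mU, hV, hV]
    refine exists_congr fun w => and_congr_right fun hw => ?_
    obtain ⟨F, S', -, -, -, su⟩ := Sm.invG_exists_F' (adm D.H) (G w hw).1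
    have pf : Function.Periodic (f w) (2 * π) := (G w hw).1.2.1
    simp only
    rw [← pf.int_mul n (ψ s')]
    constructor
    · intro e
      have := S' (ψ s)
      rw [e] at this
      obtain ⟨a, b⟩ := step_uniq D.H this S
      rw [← a, b]
    · intro e
      obtain ⟨u, hu⟩ := su (ψ s' + n * (2 * π))
      have := S' u
      rw [hu, e] at this
      obtain ⟨a, b⟩ := step_uniq' D.H this S
      rw [← a, b]
  · rintro _ ⟨w, hw, rfl⟩
    exact ⟨c w, R w hw, rfl⟩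
  · rintro _ ⟨w, hw, rfl⟩ _ ⟨w', hw', rfl⟩ ne
    refine disjoint_left.2 fun ⟨x, δ⟩ a b => ne ?_
    obtain ⟨s, rfl⟩ := QuotientAddGroup.mk_surjective x
    have : w = w' := by
      rw [← (G w hw).2 (ψ s), (hc w hw s δ).1 a, ← (hc w' hw' s δ).1 b, (G w' hw').2]
    rw [this]
  rintro ⟨x, δ⟩ hx
  obtain ⟨s, rfl⟩ := QuotientAddGroup.mk_surjective x
  set a := s - L / 2 with ha
  let l : AddCircle L → ℝ := fun x => AddCircle.equivIco L a x
  have l1 : ∀ x, (l x : AddCircle L) = x := fun x => AddCircle.coe_equivIco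
  have l2 : ∀ x ≠ (a : AddCircle L), l x ∈ Ioo a (a + L) := fun x hx =>
    (AddCircle.openPartialHomeomorphCoe L a).map_target hx
  have l3 : ∀ t ∈ Ioo a (a + L), l t = t ∧ (t : AddCircle L) ≠ a := fun t ht =>
    ⟨AddCircle.equivIco_coe_of_mem (Ioo_subset_Ico_self ht),
      (AddCircle.openPartialHomeomorphCoe L a).map_source ht⟩
  have mV : ∀ x ∈ U, (ψ (l x.1), (x.2 : ℝ)) ∈ V := fun x hx => (mU _ _).1 (by rwa [l1])
  let pr : ℝ → Ioo (0 : ℝ) π := fun d => if k : d ∈ Ioo 0 π then ⟨d, k⟩ else δ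
  have pr1 : ∀ d ∈ Ioo 0 π, (pr d : ℝ) = d := fun d k => by simp only [pr, dif_pos k]
  have inn : ∀ q : ℝ × ℝ, q.2 ∈ Ioo 0 ε → (Φ q).2 ∈ Ioo 0 π := fun q hq => by
    obtain ⟨w, a, b⟩ := (hV _).1 (i1 q hq).1
    exact b ▸ (G w a).1.2.2.1 _
  have cσΦ : ContinuousOn (fun q => σ (Φ q).1) {q | q.2 ∈ Ioo 0 ε} :=
    D.cσ.comp_continuousOn cΦ.fst
  let φ : OpenPartialHomeomorph (Arc.Phase L) (ℝ × ℝ) :=
    { toFun := fun x => J (ψ (l x.1), x.2)
      invFun := fun q => (σ (Φ q).1, pr (Φ q).2)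
      source := U ∩ {x | x.1 ≠ a}
      target := {q | q.2 ∈ Ioo 0 ε} ∩ (fun q => σ (Φ q).1) ⁻¹' Ioo a (a + L)
      map_source' := fun x hx => ⟨(jV _ (mV x hx.1)).1, by
        simp only [mem_preimage, i2 _ (mV x hx.1), D.a1]
        exact l2 _ hx.2⟩
      map_target' := fun q hq => ⟨(mU _ _).2 (by
        rw [D.a2, pr1 _ (inn q hq.1)]
        exact (i1 q hq.1).1), (l3 _ hq.2).2⟩
      left_inv' := fun x hx => by
        simp only [i2 _ (mV x hx.1), D.a1, l1]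
        exact Prod.ext rfl (Subtype.ext (pr1 _ x.2.2))
      right_inv' := fun q hq => by
        simp only [(l3 _ hq.2).1, D.a2, pr1 _ (inn q hq.1)]
        exact (i1 q hq.1).2
      open_source := oU.inter (isOpen_ne_fun continuous_fst continuous_const)
      open_target := cσΦ.isOpen_inter_preimage (isOpen_Ioo.preimage continuous_snd) isOpen_Ioo
      continuousOn_toFun := cJ.comp (fun x hx => (((D.cψ.continuousAt.comp
        (continuousAt_subtype_val.comp ((AddCircle.continuousAt_equivIco L a hx.2).comp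
          (f := fun x : Arc.Phase L => x.1) continuousAt_fst))).prodMk
        (continuousAt_subtype_val.comp continuousAt_snd))).continuousWithinAt)
        fun x hx => mV x hx.1
      continuousOn_invFun := (cq.comp_continuousOn (cσΦ.mono inter_subset_left)).prodMk
        (IsInducing.subtypeVal.continuousOn_iff.2 ((cΦ.snd.mono inter_subset_left).congr
          fun q hq => pr1 _ (inn q hq.1))) }
  refine ⟨φ, ⟨hx, (l3 s ⟨by linarith [D.L0], by linarith [D.L0]⟩).2⟩, inter_subset_left,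
    fun y hy z hz e => ?_⟩
  have on : ∀ y ∈ U, y ∈ range (c (φ y).2) := fun y hy => by
    have := (hc _ (jV _ (mV y hy)).1 (l y.1) y.2).2 (jV _ (mV y hy)).2
    rwa [l1] at this
  exact ⟨_, ⟨_, (jV _ (mV y hy.1)).1, rfl⟩, on y hy.1, e ▸ on z hz.1⟩

theorem Foliated.filled (F : Foliated L Γ) : Arc.Filled L Γ := by
  obtain ⟨η, U, leaves, η0, -, a, -, b, rfl, -⟩ := F
  refine ⟨η, η0, fun x hx => ?_⟩
  obtain ⟨F, c, d⟩ := a hx
  obtain ⟨u, R, rfl⟩ := b F c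
  exact ⟨u, R, d⟩

end Vale.Agent.N097
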