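import Vale.Agent.P097B.Sup

/-! # N097 : chords of a table, their lengths and their angles -/

set_option linter.all false

namespace Vale.Agent.N097

open Real Set Filter Topology Vale.Agent.P097 Vale.Agent.P097B
open scoped ComplexConjugate

variable {h : ℝ → ℝ}

theorem stepK (H : SmoothTable h) {ψ δ ψ' δ' : ℝ} (h1 : 0 < δ) (h2 : δ < π) (h3 : 0 < δ')
    (h4 : δ' < π) (hψ : ψ' = ψ + δ + δ') (hK : K h (ψ + δ) ψ = K h (ψ + δ) ψ') :
    Step h ψ δ ψ' δ' := by
  refine ⟨h1, h2, h3, h4, hψ, T h (ψ + δ) ψ' - T h (ψ + δ) ψ, ?_, ?_⟩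
  · have := T_lt H (φ := ψ + δ) h1 h2 h3 h4 (by
      rw [add_sub_cancel_right, ← hψ]; exact hK)
    rw [add_sub_cancel_right, ← hψ] at this
    linarith
  · rw [bdry_eq h (ψ + δ) ψ', bdry_eq h (ψ + δ) ψ, hK]
    push_cast
    ring

theorem step_fwd (H : SmoothTable h) {z : ℂ} (hz : z ∈ XX) :
    Step h z.re z.im (HH h 1 z).re (HH h 1 z).im := by
  obtain ⟨a, b⟩ := HH_line H (Or.inl rfl) hz
  have c := HH_x H (Or.inl rfl) hz
  simp only [one_mul] at a b
  exact stepK H hz.1 hz.2 c.1 c.2 (by linarith) b.symm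

theorem step_bwd (H : SmoothTable h) {b δ' : ℝ} (h0 : 0 < δ') (h1 : δ' < π) :
    ∃ a δ, Step h a δ b δ' := by
  have hz : (⟨b, δ'⟩ : ℂ) ∈ XX := ⟨h0, h1⟩
  have c := HH_x H (Or.inr rfl) hz
  have := step_fwd H c
  have e := HH_inv H (Or.inr rfl) hz
  rw [neg_neg] at e
  rw [e] at this
  exact ⟨_, _, this⟩

theorem step_uniq (H : SmoothTable h) {a δ b δ' c δ'' : ℝ} (S : Step h a δ b δ')
    (S' : Step h a δ c δ'') : b = c ∧ δ' = δ'' := by
  have := (HH_step H S).symm.trans (HH_step H S')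
  exact ⟨congrArg Complex.re this, congrArg Complex.im this⟩

theorem HH_back (H : SmoothTable h) {a δ b δ' : ℝ} (S : Step h a δ b δ') :
    HH h (-1) ⟨b, δ'⟩ = ⟨a, δ⟩ := by
  rw [← HH_step H S]
  exact HH_inv H (Or.inl rfl) ⟨S.1, S.2.1⟩

theorem step_uniq' (H : SmoothTable h) {a δ b δ' c γ : ℝ} (S : Step h a δ b δ')
    (S' : Step h c γ b δ') : a = c ∧ δ = γ := by
  have := (HH_back H S).symm.trans (HH_back H S')
  exact ⟨congrArg Complex.re this, congrArg Complex.im this⟩

theorem step_tw (H : SmoothTable h) {a δ b δ' γ c γ' : ℝ} (S : Step h a δ b δ')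
    (S' : Step h a γ c γ') (l : δ < γ) : b < c := by
  have := HH_tw H (Or.inl rfl) (z := ⟨a, δ⟩) (w := ⟨a, γ⟩) ⟨S.1, S.2.1⟩ ⟨S'.1, S'.2.1⟩ rfl l
  rw [HH_step H S, HH_step H S'] at this
  simpa using this

theorem step_tw' (H : SmoothTable h) {a δ b δ' γ c γ' : ℝ} (S : Step h a δ b δ')
    (S' : Step h c γ b γ') (l : δ' < γ') : c < a := by
  have := HH_tw H (Or.inr rfl) (z := ⟨b, δ'⟩) (w := ⟨b, γ'⟩) ⟨S.2.2.1, S.2.2.2.1⟩
    ⟨S'.2.2.1, S'.2.2.2.1⟩ rfl l
  rw [HH_back H S, HH_back H S'] at this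
  simpa using this

theorem step_ang (H : SmoothTable h) {a δ b δ' γ γ' : ℝ} (S : Step h a δ b δ')
    (S' : Step h a γ b γ') : δ = γ ∧ δ' = γ' := by
  have e : δ = γ := by
    rcases lt_trichotomy δ γ with l | l | l
    · exact absurd (step_tw H S S' l) (lt_irrefl _)
    · exact l
    · exact absurd (step_tw H S' S l) (lt_irrefl _)
  subst e
  exact ⟨rfl, (step_uniq H S S').2⟩

theorem step_lt {a δ b δ' : ℝ} (S : Step h a δ b δ') : a < b ∧ b < a + 2 * π := by
  obtain ⟨h1, h2, h3, h4, h5, -⟩ := S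
  constructor <;> linarith

theorem K_far (H : SmoothTable h) (φ : ℝ) : K h φ (φ - π) = K h φ (φ + π) := by
  have a := kk_pi H (Or.inl rfl) φ
  have b := kk_pi H (Or.inr rfl) φ
  simp only [kk, one_mul, neg_mul] at a b
  rw [sub_eq_add_neg, a, b]

theorem chord (H : SmoothTable h) {a b : ℝ} (h1 : a < b) (h2 : b < a + 2 * π) :
    ∃ δ δ', Step h a δ b δ' := by
  have hp := pi_pos
  have mo := Sm.K_strictMono (adm H)
  have an := Sm.K_strictAnti (adm H)
  have cK := Sm.continuous_K (adm H).an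
  have cG : Continuous fun φ => K h φ b - K h φ a :=
    (cK.comp (continuous_id.prodMk continuous_const)).sub
      (cK.comp (continuous_id.prodMk continuous_const))
  have l : max a (b - π) ≤ min (a + π) b := by
    simp only [max_le_iff, le_min_iff]
    refine ⟨⟨?_, ?_⟩, ?_, ?_⟩ <;> linarith
  have g0 : K h (max a (b - π)) b - K h (max a (b - π)) a < 0 := by
    rcases le_total a (b - π) with c | c
    · rw [max_eq_right c]
      have := mo (b - π) ⟨le_rfl, by linarith⟩ ⟨by linarith, c⟩ (show b - π - π < a by linarith)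
      simp only [K_far H, sub_add_cancel] at this
      linarith
    · rw [max_eq_left c]
      have := an a ⟨le_rfl, by linarith⟩ ⟨h1.le, by linarith⟩ h1
      simp only at this
      linarith
  have g1 : 0 < K h (min (a + π) b) b - K h (min (a + π) b) a := by
    rcases le_total (a + π) b with c | c
    · rw [min_eq_left c]
      have := an (a + π) ⟨c, by linarith⟩ ⟨by linarith, le_rfl⟩ (show b < a + π + π by linarith)
      simp only [← K_far H, add_sub_cancel_right] at this
      linarith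
    · rw [min_eq_right c]
      have := mo b ⟨by linarith, h1.le⟩ ⟨by linarith, le_rfl⟩ h1
      simp only at this
      linarith
  obtain ⟨φ, ⟨p1, p2⟩, e⟩ := intermediate_value_Ioo l cG.continuousOn ⟨g0, g1⟩
  rw [max_lt_iff] at p1
  rw [lt_min_iff] at p2
  simp only at e
  refine ⟨φ - a, b - φ, stepK H (by linarith [p1.1]) (by linarith [p2.1]) (by linarith [p2.2])
    (by linarith [p1.2]) (by ring) ?_⟩
  rw [add_sub_cancel]
  linarith

theorem dbdry (H : SmoothTable h) (x : ℝ) :
    HasDerivAt (bdry h) (rad h x * (Complex.I * Complex.exp (x * Complex.I))) x := by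
  have h1 := ((adm H).an.hasDerivAt x).ofReal_comp
  have h2 := ((adm H).an.deriv.hasDerivAt x).ofReal_comp
  have h3 := ((hasDerivAt_id x).ofReal_comp.mul_const Complex.I).cexp
  refine ((h1.add (h2.mul_const Complex.I)).mul h3).congr_deriv ?_
  simp only [rad, id, Pi.add_apply]
  push_cast
  linear_combination ((deriv h x : ℝ) : ℂ) * Complex.exp (x * Complex.I) * Complex.I_mul_I

theorem cbdry (H : SmoothTable h) : Continuous (bdry h) :=
  continuous_iff_continuousAt.2 fun x => (dbdry H x).continuousAt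

theorem dnorm {f : ℝ → ℂ} {f' u : ℂ} {x ℓ : ℝ} (hf : HasDerivAt f f' x) (l0 : 0 < ℓ)
    (hu : ‖u‖ = 1) (e : f x = ℓ * u) : HasDerivAt (fun t => ‖f t‖) ((conj u * f').re) x := by
  have n : ‖f x‖ = ℓ := by
    rw [e, norm_mul, hu, Complex.norm_real, Real.norm_of_nonneg l0.le, mul_one]
  have d := hf.norm_sq.sqrt (by rw [n]; positivity)
  simp only [sqrt_sq (norm_nonneg _)] at d
  refine d.congr_deriv ?_
  rw [n, e, Complex.inner]
  field_simp
  simp only [map_mul, Complex.conj_ofReal]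
  rw [mul_left_comm, Complex.re_ofReal_mul, mul_comm f']

/-- the length of a chord -/
noncomputable def ell (h : ℝ → ℝ) (a b : ℝ) : ℝ := ‖bdry h b - bdry h a‖

theorem cell (H : SmoothTable h) : Continuous fun q : ℝ × ℝ => ell h q.1 q.2 :=
  (((cbdry H).comp continuous_snd).sub ((cbdry H).comp continuous_fst)).norm

theorem cis_re (a b : ℝ) : (conj (Complex.I * Complex.exp (a * Complex.I)) *
    (Complex.I * Complex.exp (b * Complex.I))).re = cos (b - a) := by
  simp only [map_mul, Complex.conj_I, Complex.mul_re, Complex.mul_im, Complex.neg_re,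
    Complex.neg_im, Complex.I_re, Complex.I_im, Complex.conj_re, Complex.conj_im,
    Complex.exp_ofReal_mul_I_re, Complex.exp_ofReal_mul_I_im, cos_sub]
  ring

theorem d_snd (H : SmoothTable h) {a δ b δ' : ℝ} (S : Step h a δ b δ') :
    HasDerivAt (fun z => ell h a z) (rad h b * cos δ') b := by
  obtain ⟨-, -, -, -, e, ℓ, l0, f⟩ := S
  refine (dnorm ((dbdry H b).sub_const (bdry h a)) l0
    (u := Complex.I * Complex.exp ((a + δ : ℝ) * Complex.I))
    (by rw [norm_mul, Complex.norm_I, Complex.norm_exp_ofReal_mul_I, one_mul])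
    (by rw [f]; ring)).congr_deriv ?_
  rw [mul_left_comm, Complex.re_ofReal_mul, cis_re, e]
  congr 2
  ring

theorem d_fst (H : SmoothTable h) {a δ b δ' : ℝ} (S : Step h a δ b δ') :
    HasDerivAt (fun z => ell h z b) (-(rad h a * cos δ)) a := by
  obtain ⟨-, -, -, -, e, ℓ, l0, f⟩ := S
  refine (dnorm ((dbdry H a).const_sub (bdry h b)) l0
    (u := Complex.I * Complex.exp ((a + δ : ℝ) * Complex.I))
    (by rw [norm_mul, Complex.norm_I, Complex.norm_exp_ofReal_mul_I, one_mul])
    (by rw [f]; ring)).congr_deriv ?_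
  rw [mul_neg, Complex.neg_re, mul_left_comm, Complex.re_ofReal_mul, cis_re, ← cos_neg δ]
  congr 3
  ring

theorem ell_pos (H : SmoothTable h) {a b : ℝ} (h1 : a < b) (h2 : b < a + 2 * π) :
    0 < ell h a b := by
  obtain ⟨δ, δ', -, -, -, -, -, ℓ, l0, f⟩ := chord H h1 h2
  unfold ell
  rw [f, add_sub_cancel_left]
  simpa [abs_of_pos l0] using l0

theorem ell_self (a : ℝ) : ell h a a = 0 := by simp [ell]

theorem ell_symm (a b : ℝ) : ell h a b = ell h b a := norm_sub_rev _ _

theorem ell_add (H : SmoothTable h) (a b : ℝ) (m n : ℤ) :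
    ell h (a + m * (2 * π)) (b + n * (2 * π)) = ell h a b := by
  unfold ell
  rw [(Arc.bdry_per H).int_mul m, (Arc.bdry_per H).int_mul n]

theorem ell_bd (H : SmoothTable h) : ∃ D, ∀ a b, ell h a b ≤ D := by
  obtain ⟨B, hB⟩ := ((Arc.bdry_per H).isBounded_of_continuous (by positivity)
    (cbdry H)).exists_norm_le
  exact ⟨B + B, fun a b => (norm_sub_le _ _).trans
    (add_le_add (hB _ (mem_range_self _)) (hB _ (mem_range_self _)))⟩

/-- the diagonals of an inscribed quadrilateral are longer than two opposite sides -/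
theorem sup_lt (H : SmoothTable h) {a a' b b' : ℝ} (h1 : a < a') (h2 : b < b') (h3 : a' ≤ b)
    (h4 : b' ≤ a + 2 * π) : ell h a b' + ell h a' b < ell h a b + ell h a' b' := by
  have c : ∀ u, Continuous fun t => ell h u t := fun u =>
    (cell H).comp (continuous_const.prodMk continuous_id)
  have m : StrictMonoOn (fun t => ell h a' t - ell h a t) (Icc b b') := by
    refine strictMonoOn_of_deriv_pos (convex_Icc _ _) ((c a').sub (c a)).continuousOn ?_
    intro t ht
    rw [interior_Icc] at ht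
    obtain ⟨δ, δ', S⟩ := chord H (show a < t by linarith [ht.1]) (by linarith [ht.2])
    obtain ⟨γ, γ', S'⟩ := chord H (show a' < t by linarith [ht.1]) (by linarith [ht.2])
    have d : HasDerivAt (fun t => ell h a' t - ell h a t) _ t := (d_snd H S').sub (d_snd H S)
    rw [d.deriv, ← mul_sub]
    refine mul_pos (H.2.2 t) (sub_pos.2 (cos_lt_cos_of_nonneg_of_le_pi S'.2.2.1.le S.2.2.2.1.le ?_))
    rcases lt_trichotomy γ' δ' with l | l | l
    · exact l
    · subst l
      exact absurd (step_uniq' H S S').1 h1.ne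
    · exact absurd (step_tw' H S S' l) (not_lt.2 h1.le)
  have := m (left_mem_Icc.2 h2.le) (right_mem_Icc.2 h2.le) h2
  simp only at this
  linarith

theorem sup_le (H : SmoothTable h) {a a' b b' : ℝ} (h1 : a ≤ a') (h2 : b ≤ b') (h3 : a' ≤ b)
    (h4 : b' ≤ a + 2 * π) : ell h a b' + ell h a' b ≤ ell h a b + ell h a' b' := by
  rcases h1.eq_or_lt with rfl | h1
  · linarith
  rcases h2.eq_or_lt with rfl | h2
  · linarith
  exact (sup_lt H h1 h2 h3 h4).le

theorem tri (H : SmoothTable h) {a z c : ℝ} (h1 : a < z) (h2 : z < c) (h3 : c ≤ a + 2 * π) :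
    ell h a c < ell h a z + ell h z c := by
  simpa [ell_self] using sup_lt H h1 h2 le_rfl h3

/-- a vertex which cannot be moved so as to lengthen the polygon -/
def Loc (h : ℝ → ℝ) (a m c : ℝ) : Prop :=
  ∀ z, a ≤ z → z ≤ a + 2 * π → z ≤ c → c ≤ z + 2 * π →
    ell h a z + ell h z c ≤ ell h a m + ell h m c

theorem Loc.next (H : SmoothTable h) {a m c : ℝ} (M : Loc h a m c) (h1 : a < m)
    (h2 : m < a + 2 * π) (h3 : m ≤ c) (h4 : c ≤ m + 2 * π) : m < c ∧ c < m + 2 * π := by
  refine ⟨h3.lt_of_ne ?_, h4.lt_of_ne ?_⟩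
  · rintro rfl
    have := M ((a + m) / 2) (by linarith) (by linarith) (by linarith) (by linarith)
    have t := tri H (show a < (a + m) / 2 by linarith) (show (a + m) / 2 < m by linarith) h2.le
    rw [ell_self] at this
    linarith
  · rintro rfl
    have := M ((m + (a + 2 * π)) / 2) (by linarith) (by linarith) (by linarith) (by linarith)
    have t := tri H (show m < (m + (a + 2 * π)) / 2 by linarith)
      (show (m + (a + 2 * π)) / 2 < a + 2 * π by linarith) (by linarith)
    generalize (m + (a + 2 * π)) / 2 = z at *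
    have e1 := ell_add H m a 0 1
    have e2 := ell_add H z a 0 1
    have e3 := ell_add H z m 0 1
    have e4 := ell_add H m m 0 1
    simp only [Int.cast_zero, zero_mul, add_zero, Int.cast_one, one_mul] at e1 e2 e3 e4
    rw [e1, e2] at t
    rw [e3, e4, ell_self, ell_symm a z, ell_symm z m, ell_symm a m] at this
    linarith

theorem Loc.prev (H : SmoothTable h) {a m c : ℝ} (M : Loc h a m c) (h1 : a ≤ m)
    (h2 : m ≤ a + 2 * π) (h3 : m < c) (h4 : c < m + 2 * π) : a < m ∧ m < a + 2 * π := by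
  refine ⟨h1.lt_of_ne ?_, h2.lt_of_ne ?_⟩
  · rintro rfl
    have := M ((a + c) / 2) (by linarith) (by linarith) (by linarith) (by linarith)
    have t := tri H (show a < (a + c) / 2 by linarith) (show (a + c) / 2 < c by linarith) h4.le
    rw [ell_self] at this
    linarith
  · rintro rfl
    have := M ((c - 2 * π + (a + 2 * π)) / 2) (by linarith) (by linarith) (by linarith)
      (by linarith)
    have t := tri H (show c - 2 * π < (c - 2 * π + (a + 2 * π)) / 2 by linarith)
      (show (c - 2 * π + (a + 2 * π)) / 2 < a + 2 * π by linarith) (by linarith)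
    generalize (c - 2 * π + (a + 2 * π)) / 2 = z at *
    have e1 := ell_add H c a (-1) 1
    have e2 := ell_add H z a 0 1
    have e3 := ell_add H c z (-1) 0
    have e4 := ell_add H a a 0 1
    have e5 := ell_add H a c 1 0
    simp only [Int.cast_zero, zero_mul, add_zero, Int.cast_one, one_mul, Int.cast_neg, neg_mul,
      ← sub_eq_add_neg] at e1 e2 e3 e4 e5
    rw [e1, e2, e3] at t
    rw [e4, e5, ell_self, ell_symm a z, ell_symm z c, ell_symm a c] at this
    linarith

/-- the reflection law -/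
theorem Loc.law (H : SmoothTable h) {a m c δ δ' γ γ' : ℝ} (M : Loc h a m c) (S : Step h a δ m δ')
    (S' : Step h m γ c γ') : δ' = γ := by
  have d : HasDerivAt (fun z => ell h a z + ell h z c) _ m := (d_snd H S).add (d_fst H S')
  obtain ⟨a1, a2⟩ := step_lt S
  obtain ⟨a3, a4⟩ := step_lt S'
  have lm : IsLocalMax (fun z => ell h a z + ell h z c) m := by
    filter_upwards [lt_mem_nhds a1, gt_mem_nhds a2, gt_mem_nhds a3,
      lt_mem_nhds (show c - 2 * π < m by linarith)] with z b1 b2 b3 b4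
    exact M z b1.le b2.le b3.le (by linarith)
  have e := lm.hasDerivAt_eq_zero d
  have r : 0 < rad h m := H.2.2 m
  have : cos δ' = cos γ := mul_left_cancel₀ r.ne' (by linarith)
  exact injOn_cos ⟨S.2.2.1.le, S.2.2.2.1.le⟩ ⟨S'.1.le, S'.2.1.le⟩ this

theorem rad_lip (H : SmoothTable h) :
    ∃ B, 0 ≤ B ∧ ∀ x y, rad h x ≤ rad h y * exp (B * |x - y|) := by
  have A := (adm H).an
  have r : ∀ x, 0 < rad h x := H.2.2
  have d : ∀ x, HasDerivAt (rad h) (deriv h x + deriv (deriv (deriv h)) x) x := fun x =>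
    (A.hasDerivAt x).add (A.deriv.deriv.hasDerivAt x)
  have cr : Continuous (rad h) := continuous_iff_continuousAt.2 fun x => (d x).continuousAt
  have p1 := deriv_per H.2.1
  have p2 := deriv_per p1
  have p3 := deriv_per p2
  have pe : Function.Periodic (fun x => (deriv h x + deriv (deriv (deriv h)) x) / rad h x)
      (2 * π) := fun x => by simp only [rad, H.2.1, p1, p2, p3]
  obtain ⟨B, hB⟩ := (pe.isBounded_of_continuous (by positivity)
    ((A.deriv.continuous.add A.deriv.deriv.deriv.continuous).div cr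
      fun x => (r x).ne')).exists_norm_le
  refine ⟨B, (norm_nonneg _).trans (hB _ (mem_range_self 0)), fun x y => ?_⟩
  have k := Convex.norm_image_sub_le_of_norm_hasDerivWithin_le (f := fun x => log (rad h x))
    (s := univ) (fun x _ => ((d x).log (r x).ne').hasDerivWithinAt)
    (fun x _ => hB _ (mem_range_self x)) convex_univ (mem_univ y) (mem_univ x)
  rw [Real.norm_eq_abs, Real.norm_eq_abs] at k
  rw [← exp_log (r x), ← exp_log (r y), ← exp_add]
  exact exp_le_exp.2 (by linarith [le_abs_self (log (rad h x) - log (rad h y))])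

theorem kk_bd (H : SmoothTable h) {B ε : ℝ} (B0 : 0 ≤ B)
    (hB : ∀ x y, rad h x ≤ rad h y * exp (B * |x - y|)) (e : ε = 1 ∨ ε = -1) (φ : ℝ) {d : ℝ}
    (h0 : 0 ≤ d) (h1 : d ≤ π) :
    rad h φ * (1 - cos d) ≤ exp (B * d) * (h φ - kk h ε φ d) ∧
      h φ - kk h ε φ d ≤ exp (B * d) * (rad h φ * (1 - cos d)) := by
  have dk : ∀ t, HasDerivAt (kk h ε φ) (-(rad h (φ + ε * t) * sin t)) t := fun t => by
    have := (Sm.hasDerivAt_K_snd (adm H).an φ (φ + ε * t)).comp t
      (((hasDerivAt_id t).const_mul ε).const_add φ)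
    refine this.congr_deriv ?_
    rcases e with rfl | rfl <;> simp
  have ab : ∀ t, 0 ≤ t → |φ + ε * t - φ| = t := fun t ht => by
    rcases e with rfl | rfl <;> simp [abs_of_nonneg ht]
  have ex : ∀ t, t ≤ d → exp (B * t) ≤ exp (B * d) := fun t ht =>
    exp_le_exp.2 (mul_le_mul_of_nonneg_left ht B0)
  have mono : ∀ {g g' : ℝ → ℝ}, (∀ t, HasDerivAt g (g' t) t) → (∀ t ∈ Ioo 0 d, 0 ≤ g' t) →
      g 0 ≤ g d := fun {g g'} a b =>
    monotoneOn_of_deriv_nonneg (convex_Icc 0 d)
      (fun t _ => (a t).continuousAt.continuousWithinAt)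
      (fun t _ => (a t).differentiableAt.differentiableWithinAt)
      (fun t ht => by rw [(a t).deriv]; exact b t (by rwa [interior_Icc] at ht))
      (left_mem_Icc.2 h0) (right_mem_Icc.2 h0) h0
  constructor
  · have := mono (g := fun t => exp (B * d) * (h φ - kk h ε φ t) - rad h φ * (1 - cos t))
      (fun t => (((dk t).const_sub (h φ)).const_mul _).sub
        (((hasDerivAt_cos t).const_sub 1).const_mul _)) (fun t ht => by
        have s := sin_nonneg_of_nonneg_of_le_pi ht.1.le (ht.2.le.trans h1)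
        have k := hB φ (φ + ε * t)
        rw [abs_sub_comm, ab t ht.1.le] at k
        have k2 := k.trans (mul_le_mul_of_nonneg_left (ex t ht.2.le) (H.2.2 _).le)
        nlinarith [mul_le_mul_of_nonneg_right k2 s])
    simp only [kk_zero, cos_zero, sub_self, mul_zero] at this
    linarith
  · have := mono (g := fun t => exp (B * d) * (rad h φ * (1 - cos t)) - (h φ - kk h ε φ t))
      (fun t => ((((hasDerivAt_cos t).const_sub 1).const_mul _).const_mul _).sub
        ((dk t).const_sub (h φ))) (fun t ht => by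
        have s := sin_nonneg_of_nonneg_of_le_pi ht.1.le (ht.2.le.trans h1)
        have k := hB (φ + ε * t) φ
        rw [ab t ht.1.le] at k
        have k2 := k.trans (mul_le_mul_of_nonneg_left (ex t ht.2.le) (H.2.2 _).le)
        nlinarith [mul_le_mul_of_nonneg_right k2 s])
    simp only [kk_zero, cos_zero, sub_self, mul_zero] at this
    linarith

/-- the angles at two consecutive impacts are comparable -/
theorem harn (H : SmoothTable h) : ∃ B, 0 ≤ B ∧ ∀ a δ b δ', Step h a δ b δ' →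
    1 - cos δ ≤ exp (B * (b - a)) * (1 - cos δ') ∧ 1 - cos δ' ≤ exp (B * (b - a)) * (1 - cos δ) := by
  obtain ⟨B, B0, hB⟩ := rad_lip H
  refine ⟨B, B0, fun a δ b δ' S => ?_⟩
  have k := S.K_eq
  obtain ⟨h1, h2, h3, h4, e, -⟩ := S
  obtain ⟨u1, u2⟩ := kk_bd H B0 hB (Or.inl rfl) (a + δ) h3.le h4.le
  obtain ⟨v1, v2⟩ := kk_bd H B0 hB (Or.inr rfl) (a + δ) h1.le h2.le
  have e1 : kk h 1 (a + δ) δ' = kk h (-1) (a + δ) δ := by
    simp only [kk, one_mul, neg_mul, ← e, add_neg_cancel_right, k]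
  rw [e1] at u1 u2
  have r : 0 < rad h (a + δ) := H.2.2 _
  have x : exp (B * (b - a)) = exp (B * δ) * exp (B * δ') := by
    rw [← exp_add, e]; congr 1; ring
  have p1 := exp_pos (B * δ)
  have p2 := exp_pos (B * δ')
  rw [x]
  constructor
  · refine le_of_mul_le_mul_left ?_ r
    nlinarith [mul_le_mul_of_nonneg_left u2 p1.le]
  · refine le_of_mul_le_mul_left ?_ r
    nlinarith [mul_le_mul_of_nonneg_left v2 p2.le]

/-- a finite piece of an orbit -/
def Seg (h : ℝ → ℝ) (n : ℕ) (x δ : ℕ → ℝ) : Prop :=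
  ∀ j < n, Step h (x j) (δ j) (x (j + 1)) (δ (j + 1))

theorem Seg.mono {n : ℕ} {x δ : ℕ → ℝ} (S : Seg h n x δ) {i j : ℕ} (hij : i ≤ j) (hj : j ≤ n) :
    x i ≤ x j := by
  induction j, hij using Nat.le_induction with
  | base => exact le_rfl
  | succ k hk ih => exact (ih (by omega)).trans (step_lt (S k (by omega))).1.le

theorem Seg.harn {B : ℝ} (hB : ∀ a δ b δ', Step h a δ b δ' →
    1 - cos δ ≤ exp (B * (b - a)) * (1 - cos δ') ∧ 1 - cos δ' ≤ exp (B * (b - a)) * (1 - cos δ))
    {n : ℕ} {x δ : ℕ → ℝ} (S : Seg h n x δ) {i j : ℕ} (hij : i ≤ j) (hj : j ≤ n) :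
    1 - cos (δ i) ≤ exp (B * (x j - x i)) * (1 - cos (δ j)) ∧
      1 - cos (δ j) ≤ exp (B * (x j - x i)) * (1 - cos (δ i)) := by
  induction j, hij using Nat.le_induction with
  | base => simp
  | succ k hk ih =>
    obtain ⟨a, b⟩ := ih (by omega)
    obtain ⟨c, d⟩ := hB _ _ _ _ (S k (by omega))
    have e : exp (B * (x (k + 1) - x i)) = exp (B * (x k - x i)) * exp (B * (x (k + 1) - x k)) := by
      rw [← exp_add]; congr 1; ring
    rw [e]
    exact ⟨a.trans (by rw [mul_assoc]; exact mul_le_mul_of_nonneg_left c (exp_pos _).le),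
      d.trans (by rw [mul_comm (exp _) (exp _), mul_assoc]
                  exact mul_le_mul_of_nonneg_left b (exp_pos _).le)⟩

theorem Seg.det (H : SmoothTable h) {n : ℕ} {x δ y γ : ℕ → ℝ} (S : Seg h n x δ) (S' : Seg h n y γ)
    (h1 : x 0 = y 0) (h2 : δ 0 = γ 0) : ∀ j ≤ n, x j = y j ∧ δ j = γ j := by
  intro j hj
  induction j with
  | zero => exact ⟨h1, h2⟩
  | succ k ih =>
    obtain ⟨a, b⟩ := ih (by omega)
    have := S k (by omega)
    rw [a, b] at this
    exact step_uniq H this (S' k (by omega))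

theorem it_x (H : SmoothTable h) {z : ℂ} (hz : z ∈ XX) (j : ℕ) : (HH h 1)^[j] z ∈ XX :=
  (HH_x H (Or.inl rfl)).iterate j hz

theorem it_step (H : SmoothTable h) {z : ℂ} (hz : z ∈ XX) (j : ℕ) :
    Step h ((HH h 1)^[j] z).re ((HH h 1)^[j] z).im ((HH h 1)^[j + 1] z).re
      ((HH h 1)^[j + 1] z).im := by
  rw [Function.iterate_succ_apply']
  exact step_fwd H (it_x H hz j)

theorem it_cont (H : SmoothTable h) (j : ℕ) : ContinuousOn (HH h 1)^[j] XX :=
  (HH_cont H (Or.inl rfl)).iterate (HH_x H (Or.inl rfl)) j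

/-- a unique root depends continuously on the parameter -/
theorem cont_root {G : ℝ × ℝ → ℝ} {g : ℝ → ℝ} {a b : ℝ} (cG : ContinuousOn G (univ ×ˢ Ioo a b))
    (inj : ∀ s, InjOn (fun d => G (s, d)) (Ioo a b))
    (hg : ∀ s, g s ∈ Ioo a b ∧ G (s, g s) = 0) : Continuous g := by
  have c2 : ∀ s, ContinuousOn (fun d => G (s, d)) (Ioo a b) := fun s =>
    cG.comp (continuous_const.prodMk continuous_id).continuousOn fun d hd => ⟨trivial, hd⟩
  have c1 : ∀ d ∈ Ioo a b, Continuous fun s => G (s, d) := fun d hd =>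
    cG.comp_continuous (continuous_id.prodMk continuous_const) fun s => ⟨trivial, hd⟩
  refine continuous_iff_continuousAt.2 fun s₀ => ?_
  refine (nhds_basis_Ioo' ⟨_, (hg s₀).1.1⟩ ⟨_, (hg s₀).1.2⟩).tendsto_right_iff.2 ?_
  rintro ⟨l, u⟩ ⟨h1, h2⟩
  obtain ⟨l', l1, l2⟩ := exists_between (max_lt h1 (hg s₀).1.1)
  obtain ⟨u', u1, u2⟩ := exists_between (lt_min h2 (hg s₀).1.2)
  rw [max_lt_iff] at l1
  rw [lt_min_iff] at u2
  have sub : Icc l' u' ⊆ Ioo a b := fun d hd => ⟨l1.2.trans_le hd.1, hd.2.trans_lt u2.2⟩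
  have lu : l' ≤ u' := (l2.trans u1).le
  have ml := left_mem_Icc.2 lu
  have mu := right_mem_Icc.2 lu
  have mg : g s₀ ∈ Icc l' u' := ⟨l2.le, u1.le⟩
  have fin : ∀ s, 0 ∈ (fun d => G (s, d)) '' Ioo l' u' → g s ∈ Ioo l u := by
    rintro s ⟨d, hd, e⟩
    have : d = g s := inj s (sub (Ioo_subset_Icc_self hd)) (hg s).1 (e.trans (hg s).2.symm)
    rw [← this]
    exact ⟨l1.1.trans hd.1, hd.2.trans u2.1⟩
  rcases ((c2 s₀).mono sub).strictMonoOn_of_injOn_Icc' lu ((inj s₀).mono sub) with m | m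
  · have k1 := m ml mg l2
    have k2 := m mg mu u1
    simp only [(hg s₀).2] at k1 k2
    filter_upwards [(c1 _ (sub ml)).continuousAt.eventually (gt_mem_nhds k1),
      (c1 _ (sub mu)).continuousAt.eventually (lt_mem_nhds k2)] with s a1 a2
    exact fin s (intermediate_value_Ioo lu ((c2 s).mono sub) ⟨a1, a2⟩)
  · have k1 := m ml mg l2
    have k2 := m mg mu u1
    simp only [(hg s₀).2] at k1 k2
    filter_upwards [(c1 _ (sub ml)).continuousAt.eventually (lt_mem_nhds k1),
      (c1 _ (sub mu)).continuousAt.eventually (gt_mem_nhds k2)] with s a1 a2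
    exact fin s (intermediate_value_Ioo' lu ((c2 s).mono sub) ⟨a2, a1⟩)

end Vale.Agent.N097
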