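import Vale.Agent.N097.Hopf

/-! # N097 : the greatest perimeter as a function of the rotation number -/

set_option linter.all false

namespace Vale.Agent.N097

open Real Set Filter Topology Vale.Agent.P097 Vale.Agent.P097B

variable {h : ℝ → ℝ} {N P N' P' : ℕ} {x y : ℤ → ℝ} {a b c ℓ ℓ' : ℝ}

/-- inscribed paths: first vertex, number of sides, last vertex, length -/
inductive Pth (h : ℝ → ℝ) (a : ℝ) : ℕ → ℝ → ℝ → Prop
  | nil : Pth h a 0 a 0
  | snoc {N : ℕ} {b c ℓ : ℝ} : Pth h a N b ℓ → b ≤ c → c ≤ b + 2 * π →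
      Pth h a (N + 1) c (ℓ + ell h b c)

theorem Pth.trans (p : Pth h a N b ℓ) (q : Pth h b N' c ℓ') : Pth h a (N + N') c (ℓ + ℓ') := by
  induction q with
  | nil => simpa using p
  | snoc _ u v ih => simpa only [add_assoc] using ih.snoc u v

theorem Pth.shift (H : SmoothTable h) (p : Pth h a N b ℓ) (m : ℤ) :
    Pth h (a + m * (2 * π)) N (b + m * (2 * π)) ℓ := by
  induction p with
  | nil => exact Pth.nil
  | snoc _ u v ih =>
    rw [← ell_add H _ _ m m]
    exact ih.snoc (by linarith) (by linarith)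

/-- the length of `m` consecutive sides -/
noncomputable def sig (h : ℝ → ℝ) (x : ℤ → ℝ) (i : ℤ) (m : ℕ) : ℝ :=
  ∑ j ∈ Finset.range m, ell h (x (j + i)) (x (j + i + 1))

theorem sig_succ (i : ℤ) (m : ℕ) :
    sig h x i (m + 1) = sig h x i m + ell h (x (m + i)) (x (m + i + 1)) := Finset.sum_range_succ _ _

theorem sig_add (i : ℤ) (m k : ℕ) : sig h x i (m + k) = sig h x i m + sig h x (m + i) k := by
  unfold sig
  rw [Finset.sum_range_add]
  simp only [Nat.cast_add, add_left_comm, add_assoc]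

theorem Cfg.pth (C : Cfg N P x) (i : ℤ) (m : ℕ) : Pth h (x i) m (x (m + i)) (sig h x i m) := by
  induction m with
  | zero => simpa [sig] using Pth.nil
  | succ k ih =>
    rw [sig_succ, Nat.cast_add, Nat.cast_one, add_right_comm]
    exact ih.snoc (C.2 _).1 (C.2 _).2

theorem Pth.ex (p : Pth h a N b ℓ) : ∃ u : ℕ → ℝ, u 0 = a ∧ u N = b ∧
    (∀ j < N, u j ≤ u (j + 1) ∧ u (j + 1) ≤ u j + 2 * π) ∧
    ∑ j ∈ Finset.range N, ell h (u j) (u (j + 1)) = ℓ := by
  induction p with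
  | nil => exact ⟨fun _ => a, rfl, rfl, fun j hj => absurd hj (by omega), by simp⟩
  | @snoc N b c ℓ _ s t ih =>
    obtain ⟨u, u0, u1, u2, u3⟩ := ih
    refine ⟨fun j => if j ≤ N then u j else c, by simpa using u0, by simp, fun j hj => ?_, ?_⟩
    · rcases (Nat.le_of_lt_succ hj).eq_or_lt with rfl | k
      · simpa [u1] using ⟨s, t⟩
      · simpa [k.le, Nat.succ_le_of_lt k] using u2 j k
    · rw [Finset.sum_range_succ, ← u3]
      congr 1
      · exact Finset.sum_congr rfl fun j hj => by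
          have k := Finset.mem_range.1 hj
          simp [k.le, Nat.succ_le_of_lt k]
      · simp [u1]

theorem Pth.cfg (N0 : 0 < N) (p : Pth h a N (a + P * (2 * π)) ℓ) :
    ∃ x, Cfg N P x ∧ x 0 = a ∧ Len h N x = ℓ := by
  obtain ⟨u, u0, u1, u2, u3⟩ := p.ex
  have n0 : (0 : ℤ) < N := by exact_mod_cast N0
  let x : ℤ → ℝ := fun j => u (j % N).toNat + (j / N : ℤ) * (P * (2 * π))
  have k1 : ∀ (r : ℕ) (k : ℤ), r < N → x (r + k * N) = u r + k * (P * (2 * π)) := fun r k hr => by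
    have e1 : ((r : ℤ) + k * N) % N = r := by
      rw [Int.add_mul_emod_self_right, Int.emod_eq_of_lt (by omega) (by omega)]
    have e2 : ((r : ℤ) + k * N) / N = k := by
      rw [Int.add_mul_ediv_right _ _ n0.ne', Int.ediv_eq_zero_of_lt (by omega) (by omega), zero_add]
    simp only [x, e1, e2, Int.toNat_natCast]
  have k2 : ∀ (r : ℕ) (k : ℤ), r ≤ N → x (r + k * N) = u r + k * (P * (2 * π)) := fun r k hr => by
    rcases hr.eq_or_lt with rfl | hr
    · rw [show (r : ℤ) + k * r = (0 : ℕ) + (k + 1) * r by push_cast; ring, k1 0 _ N0, u0, u1]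
      push_cast; ring
    · exact k1 r k hr
  have dec : ∀ j : ℤ, ∃ (r : ℕ) (k : ℤ), r < N ∧ j = r + k * N := fun j =>
    ⟨(j % N).toNat, j / N, by have := Int.emod_lt_of_pos j n0; omega, by
      rw [Int.toNat_of_nonneg (Int.emod_nonneg j n0.ne'), Int.emod_add_ediv_mul]⟩
  refine ⟨x, ⟨fun j => ?_, fun j => ?_⟩, by simpa [u0] using k1 0 0 N0, ?_⟩
  · obtain ⟨r, k, hr, rfl⟩ := dec j
    rw [show (r : ℤ) + k * N + N = r + (k + 1) * N by ring, k1 _ _ hr, k1 _ _ hr]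
    push_cast; ring
  · obtain ⟨r, k, hr, rfl⟩ := dec j
    rw [show (r : ℤ) + k * N + 1 = (r + 1 : ℕ) + k * N by push_cast; ring, k1 _ _ hr, k2 _ _ hr]
    constructor <;> linarith [(u2 r hr).1, (u2 r hr).2]
  · rw [← u3]
    refine Finset.sum_congr rfl fun j hj => ?_
    have hr := Finset.mem_range.1 hj
    have a1 := k2 j 0 hr.le
    have a2 := k2 (j + 1) 0 hr
    simp only [zero_mul, add_zero, Int.cast_zero, Nat.cast_add, Nat.cast_one] at a1 a2
    rw [a1, a2]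

/-- the greatest perimeter -/
noncomputable def ML (h : ℝ → ℝ) (N P : ℕ) : ℝ := sSup (Len h N '' {x | Cfg N P x})

theorem GMax.ml (M : GMax h N P x) : ML h N P = Len h N x :=
  IsGreatest.csSup_eq ⟨⟨x, M.1, rfl⟩, by rintro _ ⟨y, c, rfl⟩; exact M.2 y c⟩

theorem Pth.le (H : SmoothTable h) (P0 : 0 < P) (PN : P < N)
    (p : Pth h a N (a + P * (2 * π)) ℓ) : ℓ ≤ ML h N P := by
  obtain ⟨x, C, -, rfl⟩ := p.cfg (by omega)
  obtain ⟨y, G, -⟩ := exists_gmax H P0 PN 0
  rw [G.ml]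
  exact G.2 x C

theorem ML_mul (H : SmoothTable h) (P0 : 0 < P) (PN : P < N) {k : ℕ} (k0 : 0 < k) :
    ML h (k * N) (k * P) = k * ML h N P := by
  have a0 : 0 < k * P := by positivity
  have a1 : k * P < k * N := Nat.mul_lt_mul_of_pos_left PN k0
  obtain ⟨y, G, -⟩ := exists_gmax H a0 a1 0
  obtain ⟨w, G', -⟩ := exists_gmax H P0 PN 0
  have key : ∀ u : ℕ → ℝ, (∀ i, u i ≤ u (i + 1)) → u k = u 0 → u 1 = u 0 := fun u m e =>
    le_antisymm (e ▸ monotone_nat_of_le_succ m k0) (m 0)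
  have C : Cfg N P y := ⟨fun j => ?_, G.1.2⟩
  · rw [G.ml, G'.ml, C.len_mul H]
    refine le_antisymm (mul_le_mul_of_nonneg_left (G'.2 y C) (by positivity)) ?_
    rw [← G'.1.len_mul H, ← C.len_mul H]
    exact G.2 w (G'.1.mul k)
  have e := G.1.1 j
  rcases G.ord H a0 a1 (G.mov H N (-P)) with l | l
  · have := key (fun i => y (j + i * N) - i * (P * (2 * π))) (fun i => by
      have := l (j + i * N)
      push_cast at this ⊢
      rw [add_mul, one_mul, ← add_assoc]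
      linarith) (by push_cast at e; simp only [e]; simp; ring)
    simp at this
    linarith
  · have := key (fun i => i * (P * (2 * π)) - y (j + i * N)) (fun i => by
      have := l (j + i * N)
      push_cast at this ⊢
      rw [add_mul (i : ℤ), one_mul, ← add_assoc]
      linarith) (by push_cast at e; simp only [e]; simp; ring)
    simp at this
    linarith

/-- two closed polygons are cut open and joined by two bridges -/
theorem glue (H : SmoothTable h) (C : Cfg N P x) (C' : Cfg N' P' y) (P0 : 0 < P + P')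
    (PN : P + P' < N + N') {m : ℕ} (h1 : m ≤ N) (h2 : m ≤ N') (i : ℤ)
    (p : Pth h (x i) m (y (m + i)) ℓ) (q : Pth h (y i) m (x (m + i)) ℓ') :
    ℓ + ℓ' + Len h N x + Len h N' y ≤ ML h (N + N') (P + P') + sig h x i m + sig h y i m := by
  obtain ⟨r, rfl⟩ := Nat.exists_eq_add_of_le h1
  obtain ⟨r', rfl⟩ := Nat.exists_eq_add_of_le h2
  have e : Len h (m + r) x = sig h x i m + sig h x (m + i) r := (C.len_shift H i).trans (sig_add ..)
  have e' : Len h (m + r') y = sig h y i m + sig h y (m + i) r' :=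
    (C'.len_shift H i).trans (sig_add ..)
  have a := C'.pth (h := h) (m + i) r'
  have b := (C.pth (h := h) (m + i) r).shift H P'
  rw [show (r' : ℤ) + (m + i) = i + (m + r' : ℕ) by push_cast; ring, C'.1] at a
  rw [show (r : ℤ) + (m + i) = i + (m + r : ℕ) by push_cast; ring, C.1] at b
  have t := ((p.trans a).trans (q.shift H P')).trans b
  rw [show m + r' + m + r = m + r + (m + r') by ring,
    show x i + P * (2 * π) + (P' : ℤ) * (2 * π) = x i + (P + P' : ℕ) * (2 * π) by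
      push_cast; ring] at t
  linarith [t.le H P0 PN]

theorem GMax.loc (H : SmoothTable h) (N2 : 2 ≤ N) (M : GMax h N P x) (m : ℤ) :
    Loc h (x (m - 1)) (x m) (x (m + 1)) := fun z a b c d => by
  obtain ⟨C, e⟩ := M.1.upd H N2 m a b c d
  linarith [M.2 _ C]

theorem ell_lim (H : SmoothTable h) {F : Filter ℕ} {u v : ℕ → ℝ} {s t : ℝ}
    (a : Tendsto u F (𝓝 s)) (b : Tendsto v F (𝓝 t)) :
    Tendsto (fun i => ell h (u i) (v i)) F (𝓝 (ell h s t)) :=
  ((((cbdry H).tendsto t).comp b).sub (((cbdry H).tendsto s).comp a)).norm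

theorem Loc.lim (H : SmoothTable h) {F : Filter ℕ} [F.NeBot] {A M C e : ℕ → ℝ} {m : ℝ}
    (tA : Tendsto A F (𝓝 a)) (tM : Tendsto M F (𝓝 m)) (tC : Tendsto C F (𝓝 c))
    (te : Tendsto e F (𝓝 0))
    (k : ∀ᶠ i in F, (A i ≤ M i ∧ M i ≤ A i + 2 * π ∧ M i ≤ C i ∧ C i ≤ M i + 2 * π) ∧
      ∀ z, A i ≤ z → z ≤ A i + 2 * π → z ≤ C i → C i ≤ z + 2 * π →
        ell h (A i) z + ell h z (C i) ≤ ell h (A i) (M i) + ell h (M i) (C i) + e i) :
    Loc h a m c := by
  intro z z1 z2 z3 z4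
  have tz := (tA.max (tC.sub_const (2 * π))).max
    ((tendsto_const_nhds (x := z)).min ((tA.add_const (2 * π)).min tC))
  rw [min_eq_left (le_min z2 z3), max_eq_right (max_le z1 (by linarith))] at tz
  rw [← add_zero (ell h a m + ell h m c)]
  refine le_of_tendsto_of_tendsto ((ell_lim H tA tz).add (ell_lim H tz tC))
    (((ell_lim H tA tM).add (ell_lim H tM tC)).add te) ?_
  filter_upwards [k] with i ⟨⟨a1, a2, a3, a4⟩, b⟩
  have hp := pi_pos
  refine b _ (le_max_of_le_left (le_max_left _ _)) ?_ ?_ ?_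
  · exact max_le (max_le (by linarith) (by linarith)) ((min_le_right _ _).trans (min_le_left _ _))
  · exact max_le (max_le (by linarith) (by linarith)) ((min_le_right _ _).trans (min_le_right _ _))
  · linarith [le_max_left (max (A i) (C i - 2 * π)) (min z (min (A i + 2 * π) (C i))),
      le_max_right (A i) (C i - 2 * π)]

theorem Loc.fwd (H : SmoothTable h) {m c' : ℝ} (M : Loc h a m c) (M' : Loc h a m c') (h1 : a < m)
    (h2 : m < a + 2 * π) (h3 : m ≤ c ∧ c ≤ m + 2 * π) (h4 : m ≤ c' ∧ c' ≤ m + 2 * π) : c = c' := by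
  obtain ⟨δ, δ', S⟩ := chord H h1 h2
  obtain ⟨u, v⟩ := M.next H h1 h2 h3.1 h3.2
  obtain ⟨u', v'⟩ := M'.next H h1 h2 h4.1 h4.2
  obtain ⟨γ, γ', T⟩ := chord H u v
  obtain ⟨β, β', T'⟩ := chord H u' v'
  rw [← M.law H S T] at T
  rw [← M'.law H S T'] at T'
  exact (step_uniq H T T').1

theorem Loc.bwd (H : SmoothTable h) {m a' : ℝ} (M : Loc h a m c) (M' : Loc h a' m c) (h1 : m < c)
    (h2 : c < m + 2 * π) (h3 : a ≤ m ∧ m ≤ a + 2 * π) (h4 : a' ≤ m ∧ m ≤ a' + 2 * π) : a = a' := by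
  obtain ⟨δ, δ', S⟩ := chord H h1 h2
  obtain ⟨u, v⟩ := M.prev H h3.1 h3.2 h1 h2
  obtain ⟨u', v'⟩ := M'.prev H h4.1 h4.2 h1 h2
  obtain ⟨γ, γ', T⟩ := chord H u v
  obtain ⟨β, β', T'⟩ := chord H u' v'
  rw [M.law H T S] at T
  rw [M'.law H T' S] at T'
  exact (step_uniq' H T T').1

theorem int_ind {Q : ℤ → Prop} (c : ℤ) (h0 : Q c) (h1 : ∀ j, Q j ↔ Q (j + 1)) (j : ℤ) : Q j :=
  Int.inductionOn' j c h0 (fun k _ a => (h1 k).1 a) fun k _ a => (h1 _).2 (by rwa [sub_add_cancel])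

theorem cross_ex {u v : ℕ → ℝ} {m : ℕ} (h0 : u 0 ≤ v 0) (h1 : v (m + 1) ≤ u (m + 1)) :
    ∃ c ≤ m, u c ≤ v c ∧ v (c + 1) ≤ u (c + 1) := by
  induction m with
  | zero => exact ⟨0, le_rfl, h0, h1⟩
  | succ k ih =>
    rcases le_total (v (k + 1)) (u (k + 1)) with a | a
    · obtain ⟨c, b, d⟩ := ih a
      exact ⟨c, by omega, d⟩
    · exact ⟨k + 1, le_rfl, a, h1⟩

theorem ex1 (H : SmoothTable h) {k m p : ℕ} (p0 : 0 < p) (R : (k + 1) * p < k * (m + 1) + m)
    (s : ℝ) : ∃ y, GMax h (k * (m + 1) + m) ((k + 1) * p) y ∧ y 0 ≤ s ∧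
      s + p * (2 * π) ≤ y (m + 1 : ℕ) := by
  have hp := pi_pos
  have p1 : (1 : ℝ) ≤ p := by exact_mod_cast p0
  obtain ⟨y, G, a, b⟩ := exists_gmax H (by positivity) R s
  obtain ⟨r, hr⟩ : ∃ r, k * (m + 1) + m = r + 1 := ⟨k * (m + 1) + m - 1, by omega⟩
  obtain ⟨c, -, c1, c2⟩ := cross_ex (u := fun i => y (i * (m + 1 : ℕ)) - i * p * (2 * π))
    (v := fun _ => s) (m := r) (by simpa using a) (by
      have e := G.1.per 0 (m + 1 : ℕ)
      have := (G.1.2 0).2
      rw [← hr, mul_comm, ← zero_add (_ * _ : ℤ), e]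
      rw [zero_add] at this
      push_cast
      nlinarith)
  refine ⟨_, G.mov H (c * (m + 1 : ℕ)) (-(c * p)), ?_, ?_⟩
  · push_cast at c1 ⊢; rw [zero_add]; linarith
  · push_cast at c2 ⊢
    rw [add_mul, one_mul, add_comm _ ((m : ℤ) + 1)] at c2
    linarith

theorem ex2 (H : SmoothTable h) {k m p : ℕ} (p0 : 0 < p) (R : (k + 1) * p < (k + 1) * (m + 1) + 1)
    (s : ℝ) : ∃ y, GMax h ((k + 1) * (m + 1) + 1) ((k + 1) * p) y ∧ s ≤ y 0 ∧
      y (m + 1 : ℕ) ≤ s + p * (2 * π) := by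
  have hp := pi_pos
  have p1 : (1 : ℝ) ≤ p := by exact_mod_cast p0
  obtain ⟨y, G, a, b⟩ := exists_gmax H (by positivity) R s
  obtain ⟨c, -, c1, c2⟩ := cross_ex (v := fun i => y (1 + i * (m + 1 : ℕ)) - i * p * (2 * π))
    (u := fun _ => s) (m := (k + 1) * (m + 1)) (by simpa using b) (by
      have e := G.1.per 1 (m + 1 : ℕ)
      have := (G.1.2 0).2
      rw [mul_comm _ ((m + 1 : ℕ) : ℤ), e]
      rw [zero_add] at this
      push_cast
      nlinarith)
  refine ⟨_, G.mov H (1 + c * (m + 1 : ℕ)) (-(c * p)), ?_, ?_⟩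
  · push_cast at c1 ⊢; rw [zero_add]; linarith
  · push_cast at c2 ⊢
    rw [add_mul, one_mul, ← add_assoc, add_comm _ ((m : ℤ) + 1)] at c2
    linarith

theorem lim_ex (W : ℕ → ℤ → ℝ) (l u : ℝ) (c : ∀ k, ∃ N P, Cfg N P (W k))
    (d : ∀ k, W k 0 ∈ Icc l u) :
    ∃ w : ℤ → ℝ, ∀ j, Tendsto (fun k => W k j) (hyperfilter ℕ) (𝓝 (w j)) := by
  choose w _ hw using fun j : ℤ => (isCompact_Icc (a := l - |(j : ℝ)| * (2 * π))
    (b := u + |(j : ℝ)| * (2 * π))).ultrafilter_le_nhds ((hyperfilter ℕ).map fun k => W k j)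
    (le_principal_iff.2 (mem_map.2 (univ_mem' fun k => by
      obtain ⟨N, P, C⟩ := c k
      have := abs_le.1 (C.bd j)
      exact ⟨by linarith [this.1, (d k).1], by linarith [this.2, (d k).2]⟩)))
  exact ⟨w, hw⟩

theorem lim_adm (H : SmoothTable h) {W : ℕ → ℤ → ℝ} {w : ℤ → ℝ} {N P : ℕ → ℕ}
    (G : ∀ k, GMax h (N k) (P k) (W k)) (n2 : ∀ k, 2 ≤ N k)
    (t : ∀ j, Tendsto (fun k => W k j) (hyperfilter ℕ) (𝓝 (w j))) (j : ℤ) :
    (w j ≤ w (j + 1) ∧ w (j + 1) ≤ w j + 2 * π) ∧ Loc h (w (j - 1)) (w j) (w (j + 1)) := by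
  refine ⟨⟨le_of_tendsto_of_tendsto' (t _) (t _) fun k => ((G k).1.2 j).1,
    le_of_tendsto_of_tendsto' (t _) ((t _).add_const _) fun k => ((G k).1.2 j).2⟩,
    Loc.lim H (t _) (t _) (t _) tendsto_const_nhds (Eventually.of_forall fun k => ⟨?_, ?_⟩)⟩
  · have := (G k).1.2 (j - 1)
    rw [sub_add_cancel] at this
    exact ⟨this.1, this.2, ((G k).1.2 j).1, ((G k).1.2 j).2⟩
  · simpa [Loc] using (G k).loc H (n2 k) j

/-- Mather: if the greatest perimeter has no corner at `p / n`, then the longest polygons of this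
type pass through all the boundary points -/
theorem full_of_lim (H : SmoothTable h) {q m p : ℕ} {ρ : ℝ} (p0 : 0 < p)
    (sm : ∀ N P x, 0 < P → q * P < N → GMax h N P x → ∀ j, x (j + 1) < x j + π)
    (q0 : 0 < q) (hq : q * p < m)
    (t1 : Tendsto (fun k : ℕ => ML h (k * (m + 1) + m) ((k + 1) * p) - (k + 1) * ML h (m + 1) p)
      atTop (𝓝 ρ))
    (t2 : Tendsto (fun k : ℕ => ML h ((k + 1) * (m + 1) + 1) ((k + 1) * p) -
      (k + 1) * ML h (m + 1) p) atTop (𝓝 (-ρ))) : Full h (m + 1) p := by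
  intro s
  have hp := pi_pos
  have pm : p < m := by nlinarith
  have P0 : ∀ k, 0 < (k + 1) * p := fun k => by positivity
  have Q1 : ∀ k, q * ((k + 1) * p) < k * (m + 1) + m := fun k => by nlinarith
  have R1 : ∀ k, (k + 1) * p < k * (m + 1) + m := fun k => by nlinarith
  have R2 : ∀ k, (k + 1) * p < (k + 1) * (m + 1) + 1 := fun k => by nlinarith
  choose Y G a0 a1 using fun k => ex1 H p0 (R1 (k + 1)) s
  choose Z G' b0 b1 using fun k => ex2 H p0 (R2 (k + 1)) s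
  have pp : 0 < p * (2 * π) := by positivity
  obtain ⟨x, tx⟩ := lim_ex Y (s - |((m + 1 : ℕ) : ℤ)| * (2 * π)) s (fun k => ⟨_, _, (G k).1⟩)
    fun k => ⟨by
      have := (abs_le.1 ((G k).1.bd (m + 1 : ℕ))).2
      rw [Int.cast_abs]
      linarith [a1 k], a0 k⟩
  obtain ⟨y, ty⟩ := lim_ex Z s (s + p * (2 * π)) (fun k => ⟨_, _, (G' k).1⟩)
    fun k => ⟨b0 k, ((G' k).1.mono (by positivity)).trans (b1 k)⟩
  obtain ⟨c, cm, hc⟩ := (Ultrafilter.eventually_exists_mem_iff (f := hyperfilter ℕ)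
    (P := fun (c : ℕ) k => Y k c ≤ Z k c ∧ Z k (c + 1 : ℕ) ≤ Y k (c + 1 : ℕ))
    (finite_Iic m)).1 (Eventually.of_forall fun k =>
      cross_ex (u := fun i => Y k i) (v := fun i => Z k i) ((a0 k).trans (b0 k))
        ((b1 k).trans (a1 k)))
  have ax := lim_adm H G (fun k => by nlinarith) tx
  have ay := lim_adm H G' (fun k => by nlinarith) ty
  have x0 : x 0 ≤ s := le_of_tendsto' (tx 0) a0
  have x1 : s + p * (2 * π) ≤ x (m + 1 : ℕ) := ge_of_tendsto' (tx _) a1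
  have nd : ∀ j, x j < x (j + 1) ∧ x (j + 1) < x j + 2 * π := by
    obtain ⟨i, hi⟩ : ∃ i, x i < x (i + 1) := by
      by_contra k
      push Not at k
      linarith [antitone_int_of_succ_le k (show (0 : ℤ) ≤ (m + 1 : ℕ) by positivity)]
    have : x (i + 1) ≤ x i + π := le_of_tendsto_of_tendsto' (tx _) ((tx _).add_const _)
      fun k => (sm _ _ _ (P0 _) (Q1 _) (G k) i).le
    refine int_ind i ⟨hi, by linarith⟩ fun j => ?_
    have l := (ax (j + 1)).2
    rw [add_sub_cancel_right] at l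
    exact ⟨fun a => l.next H a.1 a.2 (ax _).1.1 (ax _).1.2,
      fun a => l.prev H (ax _).1.1 (ax _).1.2 a.1 a.2⟩
  let e : ℕ → ℝ := fun k => ML h (((k + 1) * (m + 1) + m) + ((k + 1 + 1) * (m + 1) + 1))
    ((k + 1 + 1) * p + (k + 1 + 1) * p) - Len h ((k + 1) * (m + 1) + m) (Y k) -
      Len h ((k + 1 + 1) * (m + 1) + 1) (Z k)
  have te : Tendsto e (hyperfilter ℕ) (𝓝 0) := by
    have := ((t1.add t2).comp (tendsto_add_atTop_nat 1)).neg.mono_left Nat.hyperfilter_le_atTop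
    rw [add_neg_cancel, neg_zero] at this
    refine this.congr fun k => ?_
    simp only [e, Function.comp, (G k).ml, (G' k).ml]
    rw [show (k + 1) * (m + 1) + m + ((k + 1 + 1) * (m + 1) + 1) = 2 * (k + 2) * (m + 1) by ring,
      show (k + 1 + 1) * p + (k + 1 + 1) * p = 2 * (k + 2) * p by ring,
      ML_mul H p0 (by omega) (by positivity)]
    push_cast
    ring
  have br : ∀ k, Y k c ≤ Z k c ∧ Z k (c + 1 : ℕ) ≤ Y k (c + 1 : ℕ) → ∀ u v,
      Y k (c - 1) ≤ u → u ≤ Y k (c - 1) + 2 * π → u ≤ v → v ≤ u + 2 * π → v ≤ Z k (c + 1 + 1) →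
      Z k (c + 1 + 1) ≤ v + 2 * π →
      ell h (Y k (c - 1)) u + ell h u v + ell h v (Z k (c + 1 + 1)) ≤
        ell h (Y k (c - 1)) (Y k c) + ell h (Y k c) (Z k (c + 1)) +
          ell h (Z k (c + 1)) (Z k (c + 1 + 1)) + e k := by
    intro k ⟨c1, c2⟩ u v u1 u2 u3 u4 u5 u6
    push_cast at c2
    have i1 : ((1 : ℕ) : ℤ) + (c - 1) = c := by push_cast; ring
    have i2 : ((2 : ℕ) : ℤ) + (c - 1) = c + 1 := by push_cast; ring
    have i3 : ((3 : ℕ) : ℤ) + (c - 1) = c + 1 + 1 := by push_cast; ring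
    have y1 := (G k).1.2 c
    have y2 := (G k).1.2 (c + 1)
    have z0 := (G' k).1.2 (c - 1)
    have z1 := (G' k).1.2 c
    rw [sub_add_cancel] at z0
    have := glue H (G k).1 (G' k).1 (by positivity) (by linarith [R1 (k + 1), R2 (k + 1)]) (m := 3)
      (by nlinarith) (by nlinarith) (c - 1)
      (i3 ▸ ((Pth.nil.snoc u1 u2).snoc u3 u4).snoc u5 u6)
      (i3 ▸ ((Pth.nil.snoc z0.1 z0.2).snoc (z1.1.trans c2) (by linarith [y1.2])).snoc y2.1 y2.2)
    simp only [sig, Finset.sum_range_succ, Finset.range_zero, Finset.sum_empty, i1, i2, i3,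
      Nat.cast_zero, zero_add, sub_add_cancel] at this
    simp only [e]
    linarith [sup_le H c1 c2 z1.1 y1.2]
  have adj : ∀ k, Y k c ≤ Z k c ∧ Z k (c + 1 : ℕ) ≤ Y k (c + 1 : ℕ) →
      Y k c ≤ Z k (c + 1) ∧ Z k (c + 1) ≤ Y k c + 2 * π := fun k ⟨c1, c2⟩ =>
    ⟨c1.trans ((G' k).1.2 c).1, le_trans (by exact_mod_cast c2) ((G k).1.2 c).2⟩
  have am : x c ≤ y (c + 1) ∧ y (c + 1) ≤ x c + 2 * π :=
    ⟨le_of_tendsto_of_tendsto (tx _) (ty _) (hc.mono fun k a => (adj k a).1),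
      le_of_tendsto_of_tendsto (ty _) ((tx _).add_const _) (hc.mono fun k a => (adj k a).2)⟩
  have L1 : Loc h (x (c - 1)) (x c) (y (c + 1)) :=
    Loc.lim H (tx _) (tx _) (ty _) te (hc.mono fun k a => ⟨by
      have := (G k).1.2 (c - 1)
      rw [sub_add_cancel] at this
      exact ⟨this.1, this.2, adj k a⟩, fun z z1 z2 z3 z4 => by
        linarith [br k a z _ z1 z2 z3 z4 ((G' k).1.2 _).1 ((G' k).1.2 _).2]⟩)
  have L2 : Loc h (x c) (y (c + 1)) (y (c + 1 + 1)) :=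
    Loc.lim H (tx _) (ty _) (ty _) te (hc.mono fun k a =>
      ⟨⟨(adj k a).1, (adj k a).2, (G' k).1.2 _⟩, fun z z1 z2 z3 z4 => by
        have := (G k).1.2 (c - 1)
        rw [sub_add_cancel] at this
        linarith [br k a _ z this.1 this.2 z1 z2 z3 z4]⟩)
  have n0 := nd (c - 1)
  rw [sub_add_cancel] at n0
  have e1 : x (c + 1) = y (c + 1) := (ax c).2.fwd H L1 n0.1 n0.2 (ax c).1 am
  have e2 : x (c + 1 + 1) = y (c + 1 + 1) := by
    have l := (ax (c + 1)).2
    rw [add_sub_cancel_right] at l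
    rw [← e1] at L2
    exact l.fwd H L2 (nd c).1 (nd c).2 (ax _).1 (e1 ▸ (ay _).1)
  have all : ∀ j, x j = y j ∧ x (j + 1) = y (j + 1) := by
    refine int_ind (c + 1) ⟨e1, e2⟩ fun j => ?_
    have l := (ax (j + 1)).2
    have l' := (ay (j + 1)).2
    rw [add_sub_cancel_right] at l l'
    refine ⟨fun ⟨u, v⟩ => ⟨v, ?_⟩, fun ⟨u, v⟩ => ⟨?_, u⟩⟩
    · rw [← u, ← v] at l'
      exact l.fwd H l' (nd j).1 (nd j).2 (ax _).1 (v ▸ (ay _).1)
    · rw [← u, ← v] at l'
      exact l.bwd H l' (nd _).1 (nd _).2 (ax _).1 (u ▸ (ay _).1)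
  have s0 : x 0 = s := le_antisymm x0 ((all 0).1 ▸ ge_of_tendsto' (ty 0) b0)
  have s1 : x (m + 1 : ℕ) = s + p * (2 * π) :=
    le_antisymm ((all _).1 ▸ le_of_tendsto' (ty _) b1) x1
  have tb := (tx (m + 1 : ℕ)).sub_const (p * (2 * π))
  rw [s1, add_sub_cancel_right, ← s0] at tb
  have n1 := nd (-1)
  rw [neg_add_cancel] at n1
  have big : ML h (m + 1) p ≤ sig h x 0 (m + 1) := by
    have u1 := (((t1.comp (tendsto_add_atTop_nat 1)).sub t1).add_const
      (ML h (m + 1) p)).mono_left Nat.hyperfilter_le_atTop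
    have u2 : Tendsto (fun k => sig h (Y k) 0 (m + 1)) (hyperfilter ℕ) (𝓝 (sig h x 0 (m + 1))) :=
      tendsto_finset_sum _ fun j _ => ell_lim H (tx _) (tx _)
    have u3 := (u2.add (ell_lim H (tx (-1)) (tx 0))).sub (ell_lim H (tx (-1)) tb)
    rw [sub_self, zero_add] at u1
    rw [add_sub_cancel_right] at u3
    refine le_of_tendsto_of_tendsto u1 u3 ?_
    filter_upwards [(tx (-1)).eventually_lt tb n1.1,
      tb.eventually_lt ((tx (-1)).add_const (2 * π)) n1.2] with k k1 k2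
    obtain ⟨r, hr⟩ : ∃ r, k * (m + 1) + m = r + 1 := ⟨k * (m + 1) + m - 1, by omega⟩
    have C := (G k).1
    have hN : (k + 1) * (m + 1) + m = m + 1 + (r + 1) := by rw [← hr]; ring
    have f1 : Len h ((k + 1) * (m + 1) + m) (Y k) = sig h (Y k) 0 (m + 1 + (r + 1)) :=
      hN ▸ C.len_shift H 0
    have i1 : (r : ℤ) + ((m + 1 : ℕ) + 0) = -1 + ((k + 1) * (m + 1) + m : ℕ) := by
      rw [hN]; push_cast; ring
    have i2 : -1 + (((k + 1) * (m + 1) + m : ℕ) : ℤ) + 1 = 0 + ((k + 1) * (m + 1) + m : ℕ) := by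
      ring
    rw [sig_add, sig_succ _ r, i1, i2, C.1, C.1] at f1
    have g := C.pth (h := h) ((m + 1 : ℕ) + 0) r
    rw [i1, C.1] at g
    have g2 := g.snoc (c := Y k (m + 1 : ℕ) - p * (2 * π) + ((k + 1 + 1) * p : ℕ) * (2 * π))
      (by linarith) (by linarith)
    have w1 := ell_add H (Y k (-1)) (Y k 0) ((k + 1 + 1) * p : ℕ) ((k + 1 + 1) * p : ℕ)
    have w2 := ell_add H (Y k (-1)) (Y k (m + 1 : ℕ) - p * (2 * π)) ((k + 1 + 1) * p : ℕ)
      ((k + 1 + 1) * p : ℕ)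
    rw [Int.cast_natCast] at w1 w2
    rw [w1] at f1
    rw [w2, ← hr, add_zero, show Y k (m + 1 : ℕ) - p * (2 * π) + ((k + 1 + 1) * p : ℕ) * (2 * π) =
      Y k (m + 1 : ℕ) + ((k + 1) * p : ℕ) * (2 * π) by push_cast; ring] at g2
    have g3 := g2.le H (P0 k) (R1 k)
    simp only [Function.comp, (G k).ml]
    rw [add_zero] at f1
    push_cast at g3 f1 ⊢
    linarith
  have px : ∀ r : ℕ, Pth h (x 0) r (x (r + 0)) (sig h x 0 r) := fun r => by
    induction r with
    | zero => simpa [sig] using Pth.nil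
    | succ k ih =>
      rw [sig_succ, Nat.cast_add, Nat.cast_one, add_right_comm]
      exact ih.snoc (ax _).1.1 (ax _).1.2
  have := px (m + 1)
  rw [add_zero, s1, s0] at this
  obtain ⟨w, C, w0, w1⟩ := this.cfg (by omega)
  obtain ⟨g, M, -⟩ := exists_gmax H p0 (show p < m + 1 by omega) 0
  exact ⟨w, ⟨C, fun z D => (M.2 z D).trans (by rw [← M.ml, w1]; exact big)⟩, w0⟩

/-- the greatest perimeter divided by the number of sides is a differentiable function of the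
rotation number -/
def Smo (h : ℝ → ℝ) (η : ℝ) : Prop :=
  ∃ β : ℝ → ℝ, (∀ w ∈ Ioo 0 η, DifferentiableAt ℝ β w) ∧
    ∀ p n : ℕ, 0 < p → 0 < n → Nat.Coprime p n → (p : ℝ) / n < η → ML h n p = n * β (p / n)

theorem Smo.full (H : SmoothTable h) {η : ℝ} (η0 : 0 < η) (S : Smo h η) :
    ∃ q : ℕ, 0 < q ∧ ∀ N P, 0 < P → q * P < N → Full h N P := by
  obtain ⟨β, dβ, e⟩ := S
  obtain ⟨q₁, q1, sm⟩ := small H pi_pos
  obtain ⟨q₂, q2⟩ := exists_nat_gt (1 / η)
  have e' : ∀ N P : ℕ, 0 < P → (q₁ + q₂) * P < N → ML h N P = N * β (P / N) := by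
    intro N P P0 k
    obtain ⟨g, n, p, g0, co, rfl, rfl⟩ := Nat.exists_coprime' (m := N) (n := P)
      (Nat.gcd_pos_of_pos_right N P0)
    have p0 : 0 < p := Nat.pos_of_mul_pos_right P0
    have k' : (q₁ + q₂) * p < n := by
      rw [← mul_assoc] at k
      exact Nat.lt_of_mul_lt_mul_right k
    have n0 : 0 < n := by omega
    have g0' : (g : ℝ) ≠ 0 := by positivity
    have k2 : ((q₂ * p : ℕ) : ℝ) < n := by exact_mod_cast (by nlinarith : q₂ * p < n)
    have p0' : (0 : ℝ) < p := by positivity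
    rw [mul_comm n, mul_comm p, ML_mul H p0 (by nlinarith) g0, e p n p0 n0 co.symm (by
      rw [div_lt_iff₀ η0] at q2
      rw [div_lt_iff₀ (by positivity)]
      push_cast at k2
      nlinarith)]
    push_cast
    rw [mul_div_mul_left _ _ g0', mul_assoc]
  refine ⟨q₁ + q₂ + 1, by omega, fun N p p0 k => ?_⟩
  obtain ⟨m, rfl⟩ : ∃ m, N = m + 1 := ⟨N - 1, by omega⟩
  have hq : (q₁ + q₂) * p < m := by nlinarith
  have m0 : (0 : ℝ) < m + 1 := by positivity
  have p0' : (0 : ℝ) < p := by positivity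
  set w : ℝ := p / (m + 1) with hw
  have w0 : 0 < w := by positivity
  have w1 : w < η := by
    have k2 : ((q₂ * p : ℕ) : ℝ) < m := by exact_mod_cast (by nlinarith : q₂ * p < m)
    rw [div_lt_iff₀ η0] at q2
    rw [hw, div_lt_iff₀ m0]
    push_cast at k2
    nlinarith
  have sl := hasDerivAt_iff_tendsto_slope.1 (dβ w ⟨w0, w1⟩).hasDerivAt
  have e0 := e' (m + 1) p p0 (by omega)
  push_cast at e0
  rw [← hw] at e0
  have key : ∀ (σ : ℝ) (N : ℕ → ℕ), σ ≠ 0 → (∀ k : ℕ, (N k : ℝ) = (k + 1) * (m + 1) + σ) →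
      (∀ k, (q₁ + q₂) * ((k + 1) * p) < N k) → (∀ k, k ≤ N k) →
      Tendsto (fun k : ℕ => ML h (N k) ((k + 1) * p) - (k + 1) * ML h (m + 1) p) atTop
        (𝓝 (σ * (β w - w * deriv β w))) := by
    intro σ N σ0 hN k1 k2
    have N0 : ∀ k, (0 : ℝ) < N k := fun k => by exact_mod_cast (Nat.zero_le _).trans_lt (k1 k)
    have ew : ∀ k : ℕ, (((k + 1) * p : ℕ) : ℝ) / N k = w + -(σ * w) / N k := fun k => by
      have := N0 k
      rw [hw]
      field_simp
      rw [hN]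
      push_cast
      ring
    have tN : Tendsto (fun k => (N k : ℝ)) atTop atTop :=
      tendsto_natCast_atTop_atTop.comp (tendsto_atTop_mono k2 tendsto_id)
    have tw : Tendsto (fun k : ℕ => w + -(σ * w) / N k) atTop (𝓝[≠] w) :=
      tendsto_nhdsWithin_iff.2 ⟨by simpa using (tN.const_div_atTop (-(σ * w))).const_add w,
        Eventually.of_forall fun k => by
          have := N0 k
          simp only [mem_compl_iff, mem_singleton_iff, add_eq_left]
          exact div_ne_zero (neg_ne_zero.2 (mul_ne_zero σ0 w0.ne')) this.ne'⟩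
    refine ((((sl.comp tw).const_mul w).const_sub (β w)).const_mul σ).congr fun k => ?_
    have := N0 k
    rw [e' _ _ (by positivity) (k1 k), ew, e0]
    simp only [Function.comp, slope_def_field, add_sub_cancel_left]
    field_simp
    rw [hN]
    ring
  refine full_of_lim H (q := q₁ + q₂) p0
    (fun N P x P0 k G => sm N P x P0 (by nlinarith) G) (by omega) hq
    (key (-1) (fun k => k * (m + 1) + m) (by norm_num) (fun k => by push_cast; ring)
      (fun k => by nlinarith) fun k => by nlinarith) ?_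
  simpa using key 1 (fun k => (k + 1) * (m + 1) + 1) one_ne_zero (fun k => by push_cast; ring)
    (fun k => by nlinarith) fun k => by nlinarith

end Vale.Agent.N097
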