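import Vale.Agent.N097.Dic
import Vale.Agent.N097.Spec

/-! # N097 : the length spectrum of an integrable table, and the equivalences -/

set_option linter.all false

namespace Vale.Agent.N097

open Real Set Filter Topology Vale.Agent.P097 Vale.Agent.P097B

variable {h ψ σ : ℝ → ℝ} {Ω : Set ℂ} {L : ℝ} {Γ : ℝ → ℂ}

theorem smo_of_intBd (H : SmoothTable h) (I : H402.IntBd h) {θ : ℝ} (θ0 : 0 < θ) (D : Disc h θ) :
    ∃ η, 0 < η ∧ Smo h η := by
  obtain ⟨ε, η, Φ, J, ε0, -, aΦ, -, -, -, h3, h4, h5, -⟩ := I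
  have z0 : ∀ x, (Φ (x, 0)).2 = 0 := fun x => by
    have := congrArg Prod.snd (h4 x 0 (by simpa using ε0))
    rw [neg_zero] at this
    linarith
  obtain ⟨e, e0, e1, e2⟩ := tube (fun q => (Φ q).2) ε 1 θ ε0 one_pos θ0 aΦ.continuousOn.snd z0
    fun x w hw => by rw [h3 x w hw]
  obtain ⟨q₁, q1, F⟩ := D.full H θ0
  obtain ⟨q₂, q2, sm⟩ := small H θ0
  let g : ℝ × ℝ → ℝ := fun q => ell h (Φ q).1 (Φ (q.1 + q.2, q.2)).1
  have oA : IsOpen {q : ℝ × ℝ | q.2 ∈ Ioo 0 ε} := isOpen_Ioo.preimage continuous_snd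
  have ab : ∀ w ∈ Ioo 0 ε, |w| < ε := fun w hw => by rw [abs_of_pos hw.1]; exact hw.2
  have sb : ContDiff ℝ 1 (bdry h) := by
    have a : ContDiff ℝ 1 h := (adm H).an.of_le (by simp)
    have b : ContDiff ℝ 1 (deriv h) := (adm H).an.deriv.of_le (by simp)
    exact ((Complex.ofRealCLM.contDiff.comp a).add
      ((Complex.ofRealCLM.contDiff.comp b).mul contDiff_const)).mul
      (Complex.ofRealCLM.contDiff.mul contDiff_const).cexp
  have sg : ContDiffOn ℝ 1 g {q | q.2 ∈ Ioo 0 ε} := fun q hq => by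
    have a : ContDiffAt ℝ 1 Φ q := (aΦ q (ab _ hq)).contDiffAt
    have b : ContDiffAt ℝ 1 (fun q : ℝ × ℝ => Φ (q.1 + q.2, q.2)) q :=
      (aΦ (q.1 + q.2, q.2) (ab _ hq)).contDiffAt.comp q (f := fun q : ℝ × ℝ => (q.1 + q.2, q.2))
        (by fun_prop)
    have S := step_lt (h5 q.1 q.2 hq.1 hq.2)
    exact (((sb.contDiffAt.comp q b.fst).sub (sb.contDiffAt.comp q a.fst)).norm ℝ
      (norm_pos_iff.1 (ell_pos H S.1 S.2))).contDiffWithinAt
  have cg : ∀ w ∈ Ioo 0 ε, Continuous fun x => g (x, w) := fun w hw =>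
    sg.continuousOn.comp_continuous (by fun_prop) fun x => hw
  have cd : ContinuousOn (fun q => fderiv ℝ g q (0, 1)) {q | q.2 ∈ Ioo 0 ε} :=
    (sg.continuousOn_fderiv_of_isOpen oA le_rfl).clm_apply continuousOn_const
  have q0 : (0 : ℝ) < q₁ + q₂ := by positivity
  refine ⟨min e (1 / (q₁ + q₂)), by positivity, fun w => ∫ x in (0 : ℝ)..1, g (x, w),
    fun w hw => ?_, fun p n p0 n0 _ l => ?_⟩
  · have hw' : w ∈ Ioo 0 ε := ⟨hw.1, hw.2.trans_le ((min_le_left _ _).trans e1)⟩
    obtain ⟨a, a1, a2⟩ := exists_between hw'.1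
    obtain ⟨b, b1, b2⟩ := exists_between hw'.2
    have sub : ∀ v ∈ Icc a b, v ∈ Ioo 0 ε := fun v hv => ⟨a1.trans_le hv.1, hv.2.trans_lt b2⟩
    obtain ⟨C, hC⟩ := ((isCompact_Icc (a := (0 : ℝ)) (b := 1)).prod (isCompact_Icc (a := a)
      (b := b))).exists_bound_of_continuousOn (cd.mono fun q hq => sub _ hq.2)
    refine (intervalIntegral.hasDerivAt_integral_of_dominated_loc_of_deriv_le
      (F := fun w x => g (x, w)) (F' := fun w x => fderiv ℝ g (x, w) (0, 1)) (bound := fun _ => C)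
      (Icc_mem_nhds a2 b1) ?_ ((cg w hw').intervalIntegrable _ _)
      (cd.comp_continuous (f := fun x => (x, w)) (by fun_prop) fun x => hw').aestronglyMeasurable
      (MeasureTheory.ae_of_all _ fun x hx v hv => hC (x, v) ⟨?_, hv⟩) intervalIntegrable_const
      (MeasureTheory.ae_of_all _ fun x _ v hv => ?_)).2.differentiableAt
    · filter_upwards [Icc_mem_nhds a2 b1] with v hv using (cg v (sub v hv)).aestronglyMeasurable
    · rw [uIoc_of_le zero_le_one] at hx
      exact Ioc_subset_Icc_self hx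
    · exact ((sg.contDiffAt (oA.mem_nhds (sub v hv))).differentiableAt
        (by simp)).hasFDerivAt.comp_hasDerivAt v ((hasDerivAt_const v x).prodMk (hasDerivAt_id v))
  · rw [lt_min_iff] at l
    have n0' : (0 : ℝ) < n := by positivity
    have k : (q₁ + q₂) * p < n := by
      have := l.2
      rw [div_lt_div_iff₀ n0' q0, one_mul, mul_comm] at this
      exact_mod_cast this
    have pn : p < n := by nlinarith
    set w : ℝ := p / n with hw
    have w0 : 0 < w := by positivity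
    have hw' : w ∈ Ioo 0 ε := ⟨w0, l.1.trans_le e1⟩
    have pe : ∀ x, (Φ (x + 1, w)).1 = (Φ (x, w)).1 + 2 * π := fun x => by rw [h3 x w (ab w hw')]
    have all : ∀ x, ML h n p = ∑ j ∈ Finset.range n, g (x + j * w, w) := fun x => by
      obtain ⟨X, G, e⟩ := F n p p0 (by nlinarith) (Φ (x, w)).1
      obtain ⟨δ, S⟩ := G.at.seg H p0 pn
      have S' : Seg h n (fun j => (Φ (x + j * w, w)).1) fun j => (Φ (x + j * w, w)).2 := by
        intro j _
        have := h5 (x + j * w) w w0 hw'.2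
        simpa only [Nat.cast_add, Nat.cast_one, add_mul, one_mul, ← add_assoc] using this
      have a0 : X (0 : ℕ) = (Φ (x + (0 : ℕ) * w, w)).1 := by simpa using e
      have a1 := D n _ _ _ _ n0 S S' a0 (by
        obtain ⟨-, -, a, -, b, -⟩ := S 0 n0
        have := sm n p X p0 (by nlinarith) G 0
        simp only [Nat.cast_zero, zero_add, Nat.cast_one] at a b this
        linarith) (e2 _ (by simpa [abs_of_pos w0] using l.1)) (by
        have a := G.1.1 0
        have b := int_per (u := fun x => (Φ (x, w)).1) pe x p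
        simp only [zero_add, Int.cast_natCast, mul_one] at a b
        simp only [a, e, hw, mul_div_cancel₀ _ n0'.ne']
        exact b.symm)
      rw [G.ml]
      refine Finset.sum_congr rfl fun j hj => ?_
      have c := Finset.mem_range.1 hj
      have b0 := (S.det H S' a0 a1 j c.le).1
      have b1 := (S.det H S' a0 a1 (j + 1) c).1
      simp only [Nat.cast_add, Nat.cast_one, add_mul, one_mul, ← add_assoc] at b0 b1
      rw [b0, b1]
    have pg : Function.Periodic (fun x => g (x, w)) 1 := fun x => by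
      simp only [g, add_right_comm x 1 w, pe]
      simpa using ell_add H (Φ (x, w)).1 (Φ (x + w, w)).1 1 1
    have : ∫ _ in (0 : ℝ)..1, ML h n p =
        ∫ x in (0 : ℝ)..1, ∑ j ∈ Finset.range n, g (x + j * w, w) := by simp only [← all]
    rw [intervalIntegral.integral_finset_sum (f := fun (j : ℕ) x => g (x + j * w, w)) fun j _ =>
      ((cg w hw').comp (continuous_add_const (j * w))).intervalIntegrable _ _] at this
    rw [Finset.sum_congr rfl fun (j : ℕ) _ => by
      rw [intervalIntegral.integral_comp_add_right (fun x => g (x, w)), zero_add, add_comm,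
        pg.intervalIntegral_add_eq _ 0]] at this
    simpa using this

theorem Dic.ml (D : Dic L Γ h ψ σ) {n p : ℕ} (p0 : 0 < p) (pn : p < n) :
    maxLength L Γ n p = ML h n p := by
  have H := D.H
  have el : ∀ a b, ell h (ψ a) (ψ b) = ‖Γ b - Γ a‖ := fun a b => by
    simp only [ell, D.bd, D.a1]
  refine IsGreatest.csSup_eq ⟨?_, ?_⟩
  · obtain ⟨x, G, -⟩ := exists_gmax H p0 pn 0
    obtain ⟨δ, S⟩ := G.at.seg H p0 pn
    have cl : δ n = δ 0 := by
      obtain ⟨m, rfl⟩ : ∃ m, n = m + 1 := ⟨n - 1, by omega⟩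
      have a := step_shift H (S m (by omega)) (-p)
      have b := S 0 (by omega)
      have c := G.1.1 (0 - 1)
      have d := G.1.1 0
      rw [show (0 : ℤ) - 1 + (m + 1 : ℕ) = m by push_cast; ring] at c
      rw [zero_add] at d
      simp only [c, d, Int.cast_neg, Int.cast_natCast, neg_mul, add_neg_cancel_right] at a
      exact (G.loc H (by omega) 0).law H a b
    have S' := fun j => S.rep H G.1 (by omega) cl (j + 1) j (Nat.lt_succ_self j)
    refine ⟨fun j => σ (x j), fun j => ⟨δ (j % n), (S' j).1, (S' j).2.1⟩,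
      (D.traj _ _).2 fun j => by simpa only [D.a2] using S' j, ?_, Subtype.ext (by simp), ?_⟩
    · have a := G.1.1 0
      have b := int_per D.pσ (x 0) p
      simp only [zero_add, Int.cast_natCast] at a b
      simp only [a, b, Nat.cast_zero]
    · rw [G.ml]
      exact Finset.sum_congr rfl fun j _ => by rw [← el, D.a2, D.a2, Nat.cast_add, Nat.cast_one]
  · rintro _ ⟨s, δ, T, e, -, rfl⟩
    rw [D.traj] at T
    have P : ∀ r, Pth h (ψ (s 0)) r (ψ (s r)) (∑ j ∈ Finset.range r, ‖Γ (s (j + 1)) - Γ (s j)‖) :=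
      fun r => by
        induction r with
        | zero => simpa using Pth.nil
        | succ k ih =>
          rw [Finset.sum_range_succ, ← el]
          exact ih.snoc (step_lt (T k)).1.le (step_lt (T k)).2.le
    have a := P n
    have b := int_per D.pψ (s 0) p
    simp only [Int.cast_natCast] at b
    rw [e, b] at a
    exact a.le H p0 pn

theorem Dic.spec (D : Dic L Γ h ψ σ) : SmoothSpectrum L Γ ↔ ∃ η, 0 < η ∧ Smo h η := by
  have lt : ∀ {p n : ℕ} {η : ℝ}, 0 < n → (p : ℝ) / n < min η 1 → p < n := fun n0 l => by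
    have := l.trans_le (min_le_right _ _)
    rw [div_lt_one (by positivity)] at this
    exact_mod_cast this
  constructor
  · rintro ⟨η, β, η0, d, e⟩
    exact ⟨min η 1, lt_min η0 one_pos, β, fun w hw => d.differentiableAt
      (Ioo_mem_nhds hw.1 (hw.2.trans_le (min_le_left _ _))), fun p n p0 n0 c l => by
        rw [← D.ml p0 (lt n0 l), e p n p0 n0 c (l.trans_le (min_le_left _ _))]⟩
  · rintro ⟨η, η0, β, d, e⟩
    exact ⟨min η 1, β, lt_min η0 one_pos, fun w hw =>
      (d w ⟨hw.1, hw.2.trans_le (min_le_left _ _)⟩).differentiableWithinAt,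
      fun p n p0 n0 c l => by
        rw [D.ml p0 (lt n0 l), e p n p0 n0 c (l.trans_le (min_le_left _ _))]⟩

theorem tfae (T : Arc.Table Ω L Γ) (B : Arc.Filled L Γ → Arc.IsEllipse Ω) :
    [Arc.IsEllipse Ω, Foliated L Γ, DenseCurves L Γ, RationalCurves L Γ, NestedCaustics Ω Γ,
      Disconjugate L Γ, SmoothSpectrum L Γ].TFAE := by
  obtain ⟨h, ψ, σ, D⟩ := exists_dic T
  have H := D.H
  obtain ⟨E1, E2⟩ := H402.equivalence H
  have a : (∃ η, 0 < η ∧ Den h η) → ∃ η, 0 < η ∧ Collar h η := fun ⟨η, a, b⟩ => b.collar H a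
  have b : (∃ η, 0 < η ∧ Collar h η) → Arc.IsEllipse Ω := fun ⟨η, a, b⟩ => B (D.filled a b)
  have c : Arc.IsEllipse Ω → ∃ η, 0 < η ∧ Collar h η := fun E =>
    a (D.nested T (nested_of_ellipse T E))
  have d : (∃ q : ℕ, 0 < q ∧ ∀ N P, 0 < P → q * P < N → Full h N P) → Arc.IsEllipse Ω :=
    fun ⟨q, q0, F⟩ => b (E1.2 ⟨_, by positivity, leaves_of_full H q0 fun N P a _ b => F N P a b⟩)
  tfae_have 1 → 2 := fun E => D.foliated (E2.1 (c E)).2
  tfae_have 2 → 3 := fun F => by
    obtain ⟨η, η0, k⟩ := F.filled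
    exact ⟨η, η0, fun x hx => subset_closure (k x hx)⟩
  tfae_have 3 → 1 := fun F => b (a (D.den F))
  tfae_have 1 ↔ 4 := ⟨fun E => D.rational.2 (E1.1 (c E)), fun F => b (E1.2 (D.rational.1 F))⟩
  tfae_have 1 ↔ 5 := ⟨nested_of_ellipse T, fun F => b (a (D.nested T F))⟩
  tfae_have 1 ↔ 6 := ⟨fun E => D.disconj (E2.1 (c E)).2, fun F => by
    obtain ⟨η, η0, k⟩ := D.disc F
    exact d (k.full H η0)⟩
  tfae_have 1 ↔ 7 := ⟨fun E => by
    obtain ⟨η, η0, k⟩ := D.disc (D.disconj (E2.1 (c E)).2)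
    exact D.spec.2 (smo_of_intBd H (E2.1 (c E)).2 η0 k), fun F => by
    obtain ⟨η, η0, k⟩ := D.spec.1 F
    exact d (k.full H η0)⟩
  tfae_finish

theorem SmoothSpectrum.congr {L' : ℝ} {Γ' : ℝ → ℂ} (S : SmoothSpectrum L' Γ') {η : ℝ} (η0 : 0 < η)
    (e : ∀ p n : ℕ, 0 < p → 0 < n → Nat.Coprime p n → (p : ℝ) / n < η →
      maxLength L Γ n p = maxLength L' Γ' n p) : SmoothSpectrum L Γ := by
  obtain ⟨θ, β, θ0, d, k⟩ := S
  exact ⟨min θ η, β, lt_min θ0 η0, d.mono (Ioo_subset_Ioo_right (min_le_left _ _)),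
    fun p n p0 n0 c l => (e p n p0 n0 c (l.trans_le (min_le_right _ _))).trans
      (k p n p0 n0 c (l.trans_le (min_le_left _ _)))⟩

end Vale.Agent.N097
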