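import Vale.Agent.Results.P097.AAFull
import Vale.Agent.N097.Top

/-!
# P097: the near-boundary Birkhoff conjecture, and six descriptions of the ellipse

A table which is integrable near the boundary is an ellipse. Ellipses are also the only tables
with a dense family of invariant curves, with all the rational invariant curves, with a nested
family of convex caustics, without conjugate points, or with a differentiable marked length
spectrum near the boundary.
-/

namespace Vale.Agent.N097.Old

open Vale.Agent.P097B.Arc Vale.Agent.N097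

theorem ellipseEquivalences (Ω : Set ℂ) (L : ℝ) (Γ : ℝ → ℂ) (T : Table Ω L Γ) :
    (Foliated L Γ → IsEllipse Ω) ∧
    [IsEllipse Ω, Foliated L Γ, DenseCurves L Γ, RationalCurves L Γ, NestedCaustics Ω Γ,
      Disconjugate L Γ, SmoothSpectrum L Γ].TFAE ∧
    ∀ (Ω' : Set ℂ) (L' : ℝ) (Γ' : ℝ → ℂ) (η : ℝ), Table Ω' L' Γ' → IsEllipse Ω' → 0 < η →
      (∀ p n : ℕ, 0 < p → 0 < n → Nat.Coprime p n → (p : ℝ) / n < η →
        maxLength L Γ n p = maxLength L' Γ' n p) → IsEllipse Ω :=
  have E := tfae T (Vale.Agent.Results.P097.AAFull.result Ω L Γ T)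
  ⟨(E.out 1 0).1, E, fun Ω' L' Γ' _ T' e η0 k => (E.out 6 0).1
    (SmoothSpectrum.congr (((tfae T' (Vale.Agent.Results.P097.AAFull.result Ω' L' Γ' T')).out 0 6).1 e) η0 k)⟩

end Vale.Agent.N097.Old
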